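import Mathlib

/-!
# P154: packed natural numbers for the quantised recursion

Everything here is evaluated by the kernel: recursors are used directly and intermediate numbers are
forced to literals.
-/

namespace Vale.Agent.P154.Neg.Grid

/-- Evaluate a number before passing it on. -/
def force {α : Type} (x : ℕ) (k : ℕ → α) : α := match x with
  | 0 => k 0
  | n + 1 => k (n + 1)

@[simp] lemma force_eq {α : Type} (x : ℕ) (k : ℕ → α) : force x k = k x := by
  cases x <;> rfl

/-- Evaluate all entries of a list before passing it on. -/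
noncomputable def forceL {α : Type} : List ℕ → (List ℕ → α) → α :=
  List.rec (fun k => k []) fun x _ ih k => force x fun x' => ih fun t' => k (x' :: t')

@[simp] lemma forceL_eq {α : Type} : ∀ (l : List ℕ) (k : List ℕ → α), forceL l k = k l := by
  intro l
  induction l with
  | nil => intro k; rfl
  | cons x t ih =>
    intro k
    show force x (fun x' => forceL t fun t' => k (x' :: t')) = k (x :: t)
    simp [ih]

/-- Horner value of a digit list in base `2 ^ L`. -/
def hor (L : ℕ) : List ℕ → ℕ
  | [] => 0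
  | g :: gs => g + 2 ^ L * hor L gs

lemma hor_append (L : ℕ) : ∀ l₁ l₂ : List ℕ,
    hor L (l₁ ++ l₂) = hor L l₁ + 2 ^ (L * l₁.length) * hor L l₂
  | [], l₂ => by simp [hor]
  | g :: gs, l₂ => by
    simp only [List.cons_append, hor, hor_append L gs l₂, List.length_cons, Nat.mul_succ, pow_add]
    ring

lemma hor_lt (L : ℕ) : ∀ l : List ℕ, (∀ g ∈ l, g < 2 ^ L) → hor L l < 2 ^ (L * l.length)
  | [], _ => by simp [hor]
  | g :: gs, h => by
    have h1 := h g (by simp)
    have h2 := hor_lt L gs fun x hx => h x (List.mem_cons_of_mem _ hx)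
    simp only [hor, List.length_cons, Nat.mul_succ, pow_add]
    calc g + 2 ^ L * hor L gs < 2 ^ L * 1 + 2 ^ L * hor L gs := by omega
      _ = 2 ^ L * (1 + hor L gs) := by ring
      _ ≤ 2 ^ L * 2 ^ (L * gs.length) := Nat.mul_le_mul_left _ (by omega)
      _ = _ := by ring

/-- Merge neighbouring digits. -/
def pairUp (L : ℕ) : List ℕ → List ℕ
  | [] => []
  | [a] => [a]
  | a :: b :: t => Nat.add a (Nat.shiftLeft b L) :: pairUp L t

/-- Balanced packing. -/
def join : ℕ → ℕ → List ℕ → ℕ
  | _, 0, l => l.headD 0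
  | L, d + 1, l => join (L + L) d (pairUp L l)

lemma hor_pairUp (L : ℕ) : ∀ l : List ℕ, hor (L + L) (pairUp L l) = hor L l
  | [] => rfl
  | [a] => by simp [pairUp, hor]
  | a :: b :: t => by
    show (a + b <<< L) + 2 ^ (L + L) * hor (L + L) (pairUp L t) = _
    rw [hor_pairUp L t, Nat.shiftLeft_eq, pow_add, hor, hor]; ring

lemma length_pairUp (L : ℕ) : ∀ l : List ℕ, 2 * (pairUp L l).length ≤ l.length + 1
  | [] => by simp [pairUp]
  | [a] => by simp [pairUp]
  | a :: b :: t => by
    have := length_pairUp L t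
    simp [pairUp]; omega

lemma join_eq : ∀ (L d : ℕ) (l : List ℕ), l.length ≤ 2 ^ d → join L d l = hor L l
  | L, 0, l, h => by
    match l, h with
    | [], _ => rfl
    | [g], _ => simp [join, hor]
  | L, d + 1, l, h => by
    rw [pow_succ] at h
    have := length_pairUp L l
    rw [join, join_eq (L + L) d _ (by omega), hor_pairUp]

/-- Sums of neighbours. -/
def pairAdd : List ℕ → List ℕ
  | [] => []
  | [a] => [a]
  | a :: b :: t => Nat.add a b :: pairAdd t

/-- Balanced sum of a list. -/
def sumT : ℕ → List ℕ → ℕ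
  | 0, l => l.sum
  | d + 1, l => sumT d (pairAdd l)

lemma sum_pairAdd : ∀ l : List ℕ, (pairAdd l).sum = l.sum
  | [] => rfl
  | [a] => rfl
  | a :: b :: t => by simp [pairAdd, sum_pairAdd t, Nat.add_assoc]

lemma sumT_eq : ∀ (d : ℕ) (l : List ℕ), sumT d l = l.sum
  | 0, _ => rfl
  | d + 1, l => by rw [sumT, sumT_eq d, sum_pairAdd]

/-- Scalar product; the partial sums stay balanced. -/
def dot (us cs : List ℕ) : ℕ := sumT 8 (List.zipWith Nat.mul us cs)

@[simp] lemma dot_nil (c : List ℕ) : dot [] c = 0 := by simp [dot, sumT_eq]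

@[simp] lemma dot_cons_nil (u : ℕ) (us : List ℕ) : dot (u :: us) [] = 0 := by simp [dot, sumT_eq]

@[simp] lemma dot_cons (u : ℕ) (us : List ℕ) (c : ℕ) (cs : List ℕ) :
    dot (u :: us) (c :: cs) = u * c + dot us cs := by
  simp [dot, sumT_eq]

lemma dot_eq : ∀ (u c : List ℕ), u.length = c.length →
    dot u c = ∑ i : Fin u.length, u.getD i 0 * c.getD i 0
  | [], c, _ => by simp
  | x :: us, [], h => by simp at h
  | x :: us, y :: cs, h => by
    rw [dot_cons, dot_eq us cs (by simpa using h)]
    simp [Fin.sum_univ_succ]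

lemma dot_append : ∀ (u₁ c₁ u₂ c₂ : List ℕ), u₁.length = c₁.length →
    dot (u₁ ++ u₂) (c₁ ++ c₂) = dot u₁ c₁ + dot u₂ c₂
  | [], [], _, _, _ => by simp
  | [], _ :: _, _, _, h => by simp at h
  | _ :: _, [], _, _, h => by simp at h
  | x :: u₁, y :: c₁, u₂, c₂, h => by
    simp [dot_append u₁ c₁ u₂ c₂ (by simpa using h), Nat.add_assoc]

/-- Weighted sum of the digits of a packed number. -/
noncomputable def rowsL (L : ℕ) : List ℕ → ℕ → ℕ :=
  List.rec (fun _ => 0) fun w _ ih R =>
    force R fun R => Nat.add (Nat.mul w (Nat.mod R (2 ^ L))) (ih (Nat.shiftRight R L))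

lemma rowsL_hor (L : ℕ) : ∀ (w g : List ℕ), w.length = g.length → (∀ x ∈ g, x < 2 ^ L) →
    rowsL L w (hor L g) = dot w g
  | [], g, _, _ => by simp [rowsL]
  | x :: w, [], h, _ => by simp at h
  | x :: w, y :: g, h, hg => by
    have hy := hg y (by simp)
    show force (y + 2 ^ L * hor L g) (fun R => x * (R % 2 ^ L) + rowsL L w (R >>> L)) = _
    rw [force_eq, Nat.add_mul_mod_self_left, Nat.mod_eq_of_lt hy, Nat.shiftRight_eq_div_pow,
      Nat.add_mul_div_left _ _ (by positivity), Nat.div_eq_of_lt hy, Nat.zero_add,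
      rowsL_hor L w g (by simpa using h) fun z hz => hg z (List.mem_cons_of_mem _ hz), dot_cons]

/-- The same sum, the packed number cut into blocks of `k` digits first. -/
noncomputable def rowsB (L k : ℕ) : ℕ → List ℕ → ℕ → ℕ :=
  Nat.rec (fun w R => rowsL L w R) fun _ ih w R => force R fun R =>
    Nat.add (rowsL L (w.take k) (Nat.mod R (2 ^ (L * k))))
      (ih (w.drop k) (Nat.shiftRight R (L * k)))

lemma rowsB_hor (L k : ℕ) : ∀ (m : ℕ) (w g : List ℕ), w.length = g.length →
    (∀ x ∈ g, x < 2 ^ L) → rowsB L k m w (hor L g) = dot w g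
  | 0, w, g, h, hg => rowsL_hor L w g h hg
  | m + 1, w, g, h, hg => by
    show force (hor L g) (fun R => rowsL L (w.take k) (R % 2 ^ (L * k))
      + rowsB L k m (w.drop k) (R >>> (L * k))) = _
    rw [force_eq]
    have hd : hor L g % 2 ^ (L * k) = hor L (g.take k) ∧
        hor L g >>> (L * k) = hor L (g.drop k) := by
      rw [Nat.shiftRight_eq_div_pow]
      have hlt := hor_lt L (g.take k) fun x hx => hg x (List.mem_of_mem_take hx)
      rcases le_total k g.length with hk | hk
      · rw [List.length_take, Nat.min_eq_left hk] at hlt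
        have e : hor L g = hor L (g.take k) + 2 ^ (L * k) * hor L (g.drop k) := by
          conv_lhs => rw [← List.take_append_drop k g, hor_append, List.length_take,
            Nat.min_eq_left hk]
        rw [e, Nat.add_mul_mod_self_left, Nat.mod_eq_of_lt hlt,
          Nat.add_mul_div_left _ _ (by positivity), Nat.div_eq_of_lt hlt, Nat.zero_add]
        exact ⟨rfl, rfl⟩
      · rw [List.drop_eq_nil_of_le hk, List.take_of_length_le hk]
        have : hor L g < 2 ^ (L * k) :=
          lt_of_lt_of_le (hor_lt L g hg)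
            (Nat.pow_le_pow_right (by norm_num) (Nat.mul_le_mul_left _ hk))
        exact ⟨Nat.mod_eq_of_lt this, Nat.div_eq_of_lt this⟩
    rw [hd.1, hd.2, rowsL_hor L _ _ (by simp [h]) fun x hx => hg x (List.mem_of_mem_take hx),
      rowsB_hor L k m _ _ (by simp [h]) fun x hx => hg x (List.mem_of_mem_drop hx),
      ← dot_append _ _ _ _ (by simp [h]), List.take_append_drop, List.take_append_drop]

lemma hor_flatten (S m : ℕ) : ∀ ls : List (List ℕ), (∀ l ∈ ls, l.length = m) →
    hor S ls.flatten = hor (S * m) (ls.map (hor S))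
  | [], _ => rfl
  | l :: ls, h => by
    rw [List.flatten_cons, hor_append, h l (by simp), List.map_cons, hor,
      hor_flatten S m ls fun x hx => h x (List.mem_cons_of_mem _ hx)]

/-- Dropping `k` low bits of every digit by one shift and one mask. -/
lemma mask_hor (S k : ℕ) (hk : k ≤ S) : ∀ g : List ℕ, (∀ y ∈ g, y < 2 ^ S) →
    (hor S g >>> k) &&& hor S (List.replicate g.length (2 ^ (S - k) - 1))
      = hor S (g.map fun y => y / 2 ^ k)
  | [], _ => by simp [hor]
  | y :: g, hg => by
    have hy := hg y (by simp)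
    have ih := mask_hor S k hk g fun z hz => hg z (List.mem_cons_of_mem _ hz)
    have e : 2 ^ S = 2 ^ k * 2 ^ (S - k) := by rw [← pow_add, Nat.add_sub_cancel' hk]
    set R := hor S g
    set M := hor S (List.replicate g.length (2 ^ (S - k) - 1))
    have hlt : 2 ^ (S - k) - 1 < 2 ^ S := lt_of_lt_of_le (Nat.sub_lt (by positivity) one_pos)
      (Nat.pow_le_pow_right (by norm_num) (Nat.sub_le S k))
    have h1 : (y + 2 ^ S * R) >>> k = y / 2 ^ k + 2 ^ (S - k) * R := by
      rw [Nat.shiftRight_eq_div_pow, e, mul_assoc, Nat.add_mul_div_left _ _ (by positivity)]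
    have hq : y / 2 ^ k < 2 ^ (S - k) := Nat.div_lt_of_lt_mul (e ▸ hy)
    set z := ((y + 2 ^ S * R) >>> k) &&& ((2 ^ (S - k) - 1) + 2 ^ S * M) with hz
    have h2 : z % 2 ^ S = y / 2 ^ k := by
      rw [hz, Nat.and_mod_two_pow, Nat.add_mul_mod_self_left, Nat.mod_eq_of_lt hlt,
        Nat.and_two_pow_sub_one_eq_mod, Nat.mod_mod_of_dvd _ (pow_dvd_pow 2 (Nat.sub_le S k)), h1,
        Nat.add_mul_mod_self_left, Nat.mod_eq_of_lt hq]
    have h3 : z / 2 ^ S = hor S (g.map fun y => y / 2 ^ k) := by
      rw [hz, ← Nat.shiftRight_eq_div_pow, Nat.shiftRight_and_distrib, ← Nat.shiftRight_add,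
        Nat.add_comm k S, Nat.shiftRight_add, Nat.shiftRight_eq_div_pow _ S,
        Nat.shiftRight_eq_div_pow _ S, Nat.add_mul_div_left _ _ (by positivity),
        Nat.add_mul_div_left _ _ (by positivity), Nat.div_eq_of_lt hy, Nat.div_eq_of_lt hlt,
        Nat.zero_add, Nat.zero_add, ih]
    show z = y / 2 ^ k + 2 ^ S * hor S (g.map fun y => y / 2 ^ k)
    rw [← h3, ← h2, Nat.mod_add_div]

/-- Digits of a packed number. -/
noncomputable def slots (S : ℕ) : ℕ → ℕ → List ℕ :=
  Nat.rec (fun _ => []) fun _ ih r => force r fun r =>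
    force (Nat.mod r (2 ^ S)) fun x => x :: ih (Nat.shiftRight r S)

lemma slots_hor (S : ℕ) : ∀ (n : ℕ) (g : List ℕ), g.length = n → (∀ x ∈ g, x < 2 ^ S) →
    slots S n (hor S g) = g
  | 0, g, h, _ => by
    rw [List.length_eq_zero_iff] at h
    subst h; rfl
  | n + 1, [], h, _ => by simp at h
  | n + 1, y :: g, h, hg => by
    have hy := hg y (by simp)
    show force (y + 2 ^ S * hor S g) (fun r => force (r % 2 ^ S) fun x => x :: slots S n (r >>> S)) = _
    rw [force_eq, force_eq, Nat.add_mul_mod_self_left, Nat.mod_eq_of_lt hy, Nat.shiftRight_eq_div_pow,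
      Nat.add_mul_div_left _ _ (by positivity), Nat.div_eq_of_lt hy, Nat.zero_add,
      slots_hor S n g (by simpa using h) fun z hz => hg z (List.mem_cons_of_mem _ hz)]

end Vale.Agent.P154.Neg.Grid
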