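import Vale.Agent.P154.Neg.Grid.Table

/-!
# P154: packed product steps of the quantised recursion

`tableW` packs the checked witnesses by columns. `rowsR` contracts the right weights, `lin` the left
ones; the coefficient of a pair is rounded down at a scale `2 ^ CT`, and what is lost goes to the
certain atom.
-/

namespace Vale.Agent.P154.Neg.Grid

open Finset

/-- Parameters of a product: two integer families and a target grid with `n + 1` atoms. -/
structure Cfg where
  /-- mass of the grid atoms -/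
  D : ℕ
  /-- mass of the left atoms -/
  DA : ℕ
  /-- mass of the right atoms -/
  DB : ℕ
  /-- number of grid atoms other than the certain one -/
  n : ℕ
  /-- number of left atoms -/
  NA : ℕ
  /-- number of right atoms -/
  NB : ℕ
  /-- slot width -/
  S : ℕ
  /-- depth of the packing -/
  dep : ℕ
  /-- weights are multiples of `2 ^ (-bits)` -/
  bits : ℕ
  /-- coefficients are multiples of `2 ^ (-cbits)` -/
  cbits : ℕ
  /-- grid -/
  Z : ℕ → Atom
  /-- left family -/
  A : ℕ → Atom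
  /-- right family -/
  R : ℕ → Atom
  /-- one row serves both orders of a pair -/
  sym : Bool

/-- Multiplicity of a pair. -/
def mult (s : Bool) (a b : ℕ) : ℕ := match s with
  | false => 1
  | true => Nat.add (Nat.blt a b).toNat (Nat.ble a b).toNat

/-- Row of a pair, with multiplicity; the lowest slot also holds a tag separating equal rows. -/
def entryM (S m agg : ℕ) : ℕ := Nat.mul m (Nat.add (Nat.mod agg 1048576) (aggRow S agg))

/-- Check of a pair: the witness and its aggregated form. -/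
noncomputable def okM (P : Cfg) (m a b code agg : ℕ) : Bool := match m with
  | 0 => true
  | _ + 1 => force a fun a => force b fun b => force (2 ^ P.cbits * P.D) fun num =>
      force (2 * P.DA * P.DB) fun den => okPair num den P.n P.Z (P.A a) (P.R b) code &&
        Nat.beq (aggRow P.S agg) (entry P.S code)

/-- One row of a column; absent rows are skipped at once. -/
def rowAt (S : ℕ) (s : Bool) (b a g : ℕ) : ℕ := match g with
  | 0 => 0
  | h + 1 => entryM S (mult s a b) (h + 1)

lemma rowAt_eq (S : ℕ) (s : Bool) (b a : ℕ) : ∀ g, rowAt S s b a g = entryM S (mult s a b) g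
  | 0 => by simp [rowAt, entryM, aggRow]; exact Or.inr rfl
  | _ + 1 => rfl

/-- The rows of a column, counted from `a`. -/
noncomputable def rowsOf (S : ℕ) (s : Bool) (b : ℕ) : List ℕ → ℕ → List ℕ :=
  List.rec (fun _ => []) fun g _ ih a =>
    force a fun a => rowAt S s b a g :: ih (Nat.succ a)

lemma rowsOf_eq (S : ℕ) (s : Bool) (b : ℕ) : ∀ (gs : List ℕ) (a : ℕ),
    rowsOf S s b gs a
      = List.zipWith (fun a g => entryM S (mult s a b) g) (List.range' a gs.length) gs
  | [], _ => rfl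
  | g :: gs, a => by
    show force a (fun a => rowAt S s b a g :: rowsOf S s b gs (a + 1)) = _
    rw [force_eq, rowAt_eq, rowsOf_eq S s b gs (a + 1), List.length_cons, List.range'_succ, List.zipWith_cons_cons]

/-- Column `b`. -/
noncomputable def colW (P : Cfg) (b : ℕ) (gs : List ℕ) : ℕ :=
  force b fun b => force P.S fun S => join (Nat.mul S (Nat.succ P.n)) P.dep (rowsOf S P.sym b gs 0)

/-- All columns. -/
noncomputable def tableW (P : Cfg) (ags : List (List ℕ)) : List ℕ :=
  List.zipWith (fun b gs => colW P b gs) (List.range P.NB) ags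

/-- The digits kept after rounding. -/
def mask (P : Cfg) : ℕ :=
  join (P.S * (P.n + 1)) P.dep
    (List.replicate P.NA (join P.S P.dep (List.replicate (P.n + 1) (2 ^ (P.S - P.cbits) - 1))))

/-- Check of the parameters. -/
def okCfg (P : Cfg) : Bool :=
  Nat.ble 1 P.D && Nat.ble 1 P.DA && Nat.ble 1 P.DB &&
    Nat.ble P.NA (2 ^ P.dep) && Nat.ble (P.n + 1) (2 ^ P.dep) &&
    Nat.ble 20 P.cbits && Nat.ble (P.bits + P.cbits + 3) P.S && Nat.ble (2 * P.bits + 4) P.S &&
    decide (P.Z 0 = (P.D, 0, 0)) &&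
    allUp (fun j => Nat.beq (tot3 (P.Z j)) P.D) (P.n + 1) &&
    allUp (fun a => Nat.beq (tot3 (P.A a)) P.DA) P.NA &&
    allUp (fun b => Nat.beq (tot3 (P.R b)) P.DB) P.NB

/-- Check of the witnesses. -/
noncomputable def okWit (P : Cfg) (wit ags : List (List ℕ)) : Bool :=
  Nat.beq wit.length P.NB && Nat.beq ags.length P.NB &&
    (List.zipWith (fun b p => Nat.beq p.1.length P.NA && Nat.beq p.2.length P.NA &&
      (List.zipWith (fun a q => okM P (mult P.sym a b) a b q.1 q.2) (List.range P.NA)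
        (List.zip p.1 p.2)).all id)
      (List.range P.NB) (List.zip wit ags)).all id

/-- The right weights contracted with the table, rounded down. -/
noncomputable def rowsR (P : Cfg) (C : List ℕ) (M : ℕ) (U : List ℕ) : ℕ :=
  Nat.land (Nat.shiftRight (dot U C) P.cbits) M

/-- The left weights contracted. -/
noncomputable def lin (P : Cfg) (W : List ℕ) (R : ℕ) : ℕ :=
  rowsB (P.S * (P.n + 1)) 10 (P.NA / 10) W R

/-- Quotients with the deficit put on the certain atom. -/
def norm (K tot : ℕ) (l : List ℕ) : List ℕ :=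
  (tot - (l.map fun c => c / K).sum) :: l.map fun c => c / K

/-- Weights of a product, from the contracted number. -/
noncomputable def outW (P : Cfg) (k tot q : ℕ) : List ℕ :=
  force q fun q => norm (2 ^ k) tot (slots P.S (P.n + 1) q).tail

/-- Weights as reals. -/
noncomputable def wt (bits N : ℕ) (W : List ℕ) : Fin N → ℝ :=
  fun a => (W.getD a 0 : ℝ) / 2 ^ bits

/-- Atoms of mass three. -/
noncomputable def pts (D N : ℕ) (Z : ℕ → Atom) : Fin N → Fin 3 → ℝ :=
  fun a i => 3 / (D : ℝ) * vr (Z a) i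

lemma wt_nonneg (bits N : ℕ) (W : List ℕ) (a : Fin N) : 0 ≤ wt bits N W a := by
  unfold wt; positivity

lemma pts_nonneg (D N : ℕ) (Z : ℕ → Atom) (a : Fin N) (i : Fin 3) : 0 ≤ pts D N Z a i :=
  mul_nonneg (by positivity) (vr_nonneg _ _)

lemma hor_map_range (L : ℕ) : ∀ (n : ℕ) (F : ℕ → ℕ),
    hor L ((List.range n).map F) = ∑ i ∈ range n, F i * 2 ^ (L * i)
  | 0, _ => by simp [hor]
  | n + 1, F => by
    rw [List.range_succ, List.map_append, hor_append, hor_map_range L n F, sum_range_succ]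
    simp [hor]; ring

lemma sum_map_range (n : ℕ) (F : ℕ → ℕ) : ((List.range n).map F).sum = ∑ i ∈ range n, F i := by
  induction n with
  | zero => simp
  | succ n ih => simp [List.range_succ, ih, sum_range_succ]

lemma dot_map_range : ∀ (n : ℕ) (F G : ℕ → ℕ),
    dot ((List.range n).map F) ((List.range n).map G) = ∑ i ∈ range n, F i * G i
  | 0, _, _ => by simp
  | n + 1, F, G => by
    rw [List.range_succ, List.map_append, List.map_append, dot_append _ _ _ _ (by simp),
      dot_map_range n F G, sum_range_succ]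
    simp

lemma eq_map_getD {N : ℕ} {W : List ℕ} (h : W.length = N) :
    W = (List.range N).map fun i => W.getD i 0 := by
  refine List.ext_getElem (by simp [h]) fun i h1 _ => ?_
  simp [List.getElem?_eq_getElem h1]

lemma sum_getD {N : ℕ} {W : List ℕ} (h : W.length = N) :
    ∑ i ∈ range N, W.getD i 0 = W.sum := by
  conv_rhs => rw [eq_map_getD h, sum_map_range]

lemma zipWith_range {α β : Type} (F : ℕ → α → β) (d : α) {N : ℕ} {l : List α} (h : l.length = N) :
    List.zipWith F (List.range N) l = (List.range N).map fun i => F i (l.getD i d) := by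
  refine List.ext_getElem (by simp [h]) fun i h1 _ => ?_
  have hi : i < l.length := by simpa [h] using h1
  simp [List.getElem?_eq_getElem hi]

lemma getD_zip {α β : Type} {N i : ℕ} {l : List α} {m : List β} (hl : l.length = N)
    (hm : m.length = N) (hi : i < N) (a : α) (b : β) :
    (List.zip l m).getD i (a, b) = (l.getD i a, m.getD i b) := by
  rw [List.getD_eq_getElem _ _ (by simp [hl, hm, hi]), List.getElem_zip,
    List.getD_eq_getElem _ _ (hl ▸ hi), List.getD_eq_getElem _ _ (hm ▸ hi)]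

variable (P : Cfg) (wit ags : List (List ℕ))

/-- Coefficient of the grid atom `i + 1` in the row of `(a, b)`. -/
def tau' (a b i : ℕ) : ℕ := mult P.sym a b * tau ((wit.getD b []).getD a 0) i

/-- All slots of the row of `(a, b)`: the tag, then the coefficients. -/
def tau0 (a b : ℕ) : ℕ → ℕ
  | 0 => mult P.sym a b *
      ((ags.getD b []).getD a 0 % 2 ^ 20 + tauZ ((wit.getD b []).getD a 0))
  | i + 1 => tau' P wit a b i

/-- The rounded contraction with the right weights. -/
def rowC (U : List ℕ) (a i : ℕ) : ℕ :=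
  (∑ b ∈ range P.NB, U.getD b 0 * tau0 P wit ags a b i) / 2 ^ P.cbits

/-- The contraction with both weights. -/
def coefL (W U : List ℕ) (i : ℕ) : ℕ :=
  ∑ a ∈ range P.NA, W.getD a 0 * rowC P wit ags U a i

/-- Orbit sum of the symmetrised functional. -/
noncomputable def hPair (f : (Fin 3 → ℝ) → ℝ) (a b : Atom) : ℝ :=
  ∑ k : Fin 6, sym6 f (fun i => vr a i * vr b (perm6 k i))

lemma hPair_eq (f : (Fin 3 → ℝ) → ℝ) (a b : Atom) :
    hPair f a b = ∑ p : Equiv.Perm (Fin 3), sym6 f (fun i => vr a i * vr b (p i)) := by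
  rw [hPair, perm_univ, Finset.sum_image]
  intro x _ y _ h
  revert x y
  decide

lemma hPair_comm (f : (Fin 3 → ℝ) → ℝ) (a b : Atom) : hPair f a b = hPair f b a := by
  rw [hPair_eq, hPair_eq]
  refine Fintype.sum_equiv (Equiv.inv _) _ _ fun p => ?_
  show _ = sym6 f (fun i => vr b i * vr a (p⁻¹ i))
  conv_lhs => rw [← sym6_perm f _ p⁻¹]
  refine congrArg (sym6 f) (funext fun i => ?_)
  simp [mul_comm]

lemma sum_mult {F : ℕ → ℕ → ℝ} (hs : ∀ a b, F a b = F b a) (N : ℕ) :
    ∑ a ∈ range N, ∑ b ∈ range N, (mult true a b : ℝ) * F a b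
      = ∑ a ∈ range N, ∑ b ∈ range N, F a b := by
  have e : ∀ a b : ℕ, (mult true a b : ℝ) + mult true b a = 2 := by
    intro a b
    have t1 : ∀ x y, Nat.blt x y = decide (x < y) := fun x y =>
      Bool.eq_iff_iff.2 (by simp only [Nat.blt_eq, decide_eq_true_eq])
    have t2 : ∀ x y, Nat.ble x y = decide (x ≤ y) := fun x y =>
      Bool.eq_iff_iff.2 (by simp only [Nat.ble_eq, decide_eq_true_eq])
    rcases lt_trichotomy a b with h | h | h
    · simp [mult, t1, t2, h, h.le, h.not_ge, h.not_gt]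
    · subst h; simp [mult, t1, t2]; norm_num
    · simp [mult, t1, t2, h, h.le, h.not_ge, h.not_gt]
  have h2 := (sum_comm (s := range N) (t := range N) (f := fun a b => (mult true a b : ℝ) * F a b))
  have h3 : ∑ a ∈ range N, ∑ b ∈ range N, (mult true a b : ℝ) * F a b * 2
      = ∑ a ∈ range N, ∑ b ∈ range N, F a b * 2 := by
    simp only [mul_two, sum_add_distrib]
    nth_rw 2 [h2]
    simp only [← sum_add_distrib]
    refine sum_congr rfl fun a _ => sum_congr rfl fun b _ => ?_
    rw [hs b a, ← mul_two (F a b), ← e a b]; ring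
  simp only [← sum_mul] at h3
  linarith

lemma mult_le (s : Bool) (a b : ℕ) : mult s a b ≤ 2 := by
  cases s <;> simp only [mult] <;> first | omega | (cases Nat.blt a b <;> cases Nat.ble a b <;> simp)

variable {P wit ags} {W U : List ℕ}

lemma okCfg_spec (h : okCfg P = true) :
    0 < P.D ∧ 0 < P.DA ∧ 0 < P.DB ∧ P.NA ≤ 2 ^ P.dep ∧ P.n + 1 ≤ 2 ^ P.dep ∧
      20 ≤ P.cbits ∧ P.bits + P.cbits + 3 ≤ P.S ∧ 2 * P.bits + 4 ≤ P.S ∧ P.Z 0 = (P.D, 0, 0) ∧
      (∀ j ≤ P.n, tot3 (P.Z j) = P.D) ∧ (∀ a < P.NA, tot3 (P.A a) = P.DA) ∧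
      ∀ b < P.NB, tot3 (P.R b) = P.DB := by
  simp only [okCfg, Bool.and_eq_true, Nat.ble_eq, decide_eq_true_eq] at h
  obtain ⟨⟨⟨⟨⟨⟨⟨⟨⟨⟨⟨h1, h2⟩, h3⟩, h4⟩, h5⟩, h6⟩, h7⟩, h8⟩, h9⟩, h10⟩, h11⟩, h12⟩ := h
  exact ⟨h1, h2, h3, h4, h5, h6, h7, h8, h9,
    fun j hj => Nat.eq_of_beq_eq_true (allUp_eq _ _ h10 j (Nat.lt_succ_of_le hj)),
    fun a ha => Nat.eq_of_beq_eq_true (allUp_eq _ _ h11 a ha),
    fun b hb => Nat.eq_of_beq_eq_true (allUp_eq _ _ h12 b hb)⟩

lemma okWit_spec (h : okWit P wit ags = true) :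
    ags.length = P.NB ∧ (∀ b < P.NB, (ags.getD b []).length = P.NA) ∧
      ∀ a < P.NA, ∀ b < P.NB, okM P (mult P.sym a b) a b ((wit.getD b []).getD a 0)
        ((ags.getD b []).getD a 0) = true := by
  simp only [okWit, Bool.and_eq_true, Nat.beq_eq] at h
  obtain ⟨⟨hl, hl'⟩, hall⟩ := h
  rw [zipWith_range _ ([], []) (by simp [hl, hl']), List.all_map, List.all_eq_true] at hall
  have key : ∀ b < P.NB, _ := fun b hb => hall b (List.mem_range.2 hb)
  refine ⟨hl', fun b hb => ?_, fun a ha b hb => ?_⟩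
  · have := key b hb
    simp only [Function.comp, id, Bool.and_eq_true, Nat.beq_eq, getD_zip hl hl' hb] at this
    exact this.1.2
  · have := key b hb
    simp only [Function.comp, id, Bool.and_eq_true, Nat.beq_eq, getD_zip hl hl' hb] at this
    obtain ⟨⟨h1, h2⟩, h3⟩ := this
    rw [zipWith_range _ (0, 0) (by rw [List.length_zip, h1, h2, min_self]), List.all_map, List.all_eq_true] at h3
    have := h3 a (List.mem_range.2 ha)
    simpa only [Function.comp, id, getD_zip h1 h2 ha] using this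

lemma okM_spec (h : okWit P wit ags = true) {a b : ℕ} (ha : a < P.NA) (hb : b < P.NB)
    (hm : mult P.sym a b ≠ 0) :
    okPair (2 ^ P.cbits * P.D) (2 * P.DA * P.DB) P.n P.Z (P.A a) (P.R b)
        ((wit.getD b []).getD a 0) = true ∧
      aggRow P.S ((ags.getD b []).getD a 0) = entry P.S ((wit.getD b []).getD a 0) := by
  have := (okWit_spec h).2.2 a ha b hb
  obtain ⟨m, hm'⟩ := Nat.exists_eq_succ_of_ne_zero hm
  rw [hm'] at this
  simpa only [okM, force_eq, Bool.and_eq_true, Nat.beq_eq] using this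

lemma tau0_le (hc : okCfg P = true) (h : okWit P wit ags = true) {a b : ℕ} (ha : a < P.NA)
    (hb : b < P.NB) (i : ℕ) : tau0 P wit ags a b i ≤ 2 ^ (P.cbits + 2) := by
  obtain ⟨hD, hDA, hDB, -, -, h20, -, -, -, hZ, hA, hR⟩ := okCfg_spec hc
  rcases Nat.eq_zero_or_pos (mult P.sym a b) with h0 | h0
  · cases i <;> simp [tau0, tau', h0]
  have hct := cTot_le hD hZ (okM_spec h ha hb h0.ne').1
  rw [hA a ha, hR b hb, mul_comm (2 ^ P.cbits)] at hct
  have hs := Nat.le_of_mul_le_mul_left hct (by positivity)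
  set code := (wit.getD b []).getD a 0
  have e1 : tauZ code ≤ ∑ k ∈ range 6, ∑ m ∈ range 3, cf (part code k) m :=
    sum_le_sum fun k _ => sum_le_sum fun m _ => by split_ifs <;> simp
  have e2 : ∀ j, tau code j ≤ ∑ k ∈ range 6, ∑ m ∈ range 3, cf (part code k) m := fun j =>
    sum_le_sum fun k _ => sum_le_sum fun m _ => by split_ifs <;> simp
  have h3 : 2 * (2 ^ P.cbits + 2 ^ P.cbits) = 2 ^ (P.cbits + 2) := by ring
  have hp : (2 : ℕ) ^ 20 ≤ 2 ^ P.cbits := Nat.pow_le_pow_right (by norm_num) h20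
  have h4 := Nat.mod_lt ((ags.getD b []).getD a 0) (show 0 < 2 ^ 20 by norm_num)
  cases i with
  | zero =>
    exact (Nat.mul_le_mul (mult_le P.sym a b) (add_le_add (h4.le.trans hp) (e1.trans hs))).trans h3.le
  | succ i =>
    exact (Nat.mul_le_mul (mult_le P.sym a b) (((e2 i).trans hs).trans
      (Nat.le_add_left _ _))).trans h3.le

lemma colW_eq (hd : P.NA ≤ 2 ^ P.dep) (h : okWit P wit ags = true) {b : ℕ} (hb : b < P.NB) :
    colW P b (ags.getD b []) = ∑ a ∈ range P.NA,
      (∑ i ∈ range (P.n + 1), tau0 P wit ags a b i * 2 ^ (P.S * i)) * 2 ^ (P.S * (P.n + 1) * a) := by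
  obtain ⟨_, hlen, _⟩ := okWit_spec h
  rw [colW, force_eq, force_eq, rowsOf_eq, hlen b hb, ← List.range_eq_range',
    zipWith_range _ 0 (hlen b hb), join_eq _ _ _ (by simpa using hd), Nat.mul_eq, hor_map_range]
  refine sum_congr rfl fun a ha => ?_
  congr 1
  have := okM_spec h (mem_range.1 ha) hb
  rw [sum_range_succ']
  simp only [tau0, tau']
  generalize mult P.sym a b = m at this ⊢
  match m with
  | 0 => simp [entryM, Nat.mul_eq]
  | m + 1 =>
    obtain ⟨h1, h2⟩ := this (by simp)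
    show (m + 1) * (_ % 1048576 + aggRow P.S _) = _
    rw [show (1048576 : ℕ) = 2 ^ 20 by norm_num, h2, entry_eq h1, ← Nat.add_assoc, Nat.mul_add, mul_sum, Nat.add_comm]
    congr 1
    · exact sum_congr rfl fun i _ => by ring
    · simp

lemma rowC_le (hc : okCfg P = true) (h : okWit P wit ags = true) (hU : U.length = P.NB)
    (sU : U.sum ≤ 2 ^ P.bits) {a : ℕ} (ha : a < P.NA) (i : ℕ) :
    ∑ b ∈ range P.NB, U.getD b 0 * tau0 P wit ags a b i ≤ 2 ^ (P.bits + P.cbits + 2) ∧
      rowC P wit ags U a i ≤ 2 ^ (P.bits + 2) := by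
  have h1 : ∑ b ∈ range P.NB, U.getD b 0 * tau0 P wit ags a b i
      ≤ 2 ^ (P.bits + P.cbits + 2) := by
    refine (sum_le_sum fun b hb => Nat.mul_le_mul_left _ (tau0_le hc h ha (mem_range.1 hb) i)).trans ?_
    rw [← sum_mul, sum_getD hU, Nat.add_assoc, pow_add 2 P.bits]
    exact Nat.mul_le_mul_right _ sU
  refine ⟨h1, (Nat.div_le_div_right h1).trans (le_of_eq ?_)⟩
  rw [show P.bits + P.cbits + 2 = (P.bits + 2) + P.cbits by omega, pow_add,
    Nat.mul_div_cancel _ (by positivity)]

lemma coefL_le (hc : okCfg P = true) (h : okWit P wit ags = true) (hW : W.length = P.NA)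
    (hU : U.length = P.NB) (sW : W.sum ≤ 2 ^ P.bits) (sU : U.sum ≤ 2 ^ P.bits) (i : ℕ) :
    coefL P wit ags W U i ≤ 2 ^ (2 * P.bits + 2) := by
  refine (sum_le_sum fun a ha => Nat.mul_le_mul_left _
    (rowC_le hc h hU sU (mem_range.1 ha) i).2).trans ?_
  rw [← sum_mul, sum_getD hW, two_mul, Nat.add_assoc, pow_add 2 P.bits (P.bits + 2)]
  exact Nat.mul_le_mul_right _ sW

/-- The packed contraction is the list of contractions. -/
lemma lin_eq (hc : okCfg P = true) (h : okWit P wit ags = true) (hW : W.length = P.NA)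
    (hU : U.length = P.NB) (sU : U.sum ≤ 2 ^ P.bits) :
    lin P W (rowsR P (tableW P ags) (mask P) U)
      = hor P.S ((List.range (P.n + 1)).map (coefL P wit ags W U)) := by
  obtain ⟨_, _, _, hd, hd', _, hS, -⟩ := okCfg_spec hc
  set s : ℕ → ℕ → ℕ := fun a i => ∑ b ∈ range P.NB, U.getD b 0 * tau0 P wit ags a b i
  set row : (ℕ → ℕ → ℕ) → List (List ℕ) := fun F =>
    (List.range P.NA).map fun a => (List.range (P.n + 1)).map (F a)
  have hlen : ∀ F, ∀ l ∈ row F, l.length = P.n + 1 := by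
    intro F l hl
    obtain ⟨a, -, rfl⟩ := List.mem_map.1 hl
    simp
  have hdot : dot U (tableW P ags) = hor P.S (row s).flatten := by
    rw [hor_flatten _ _ _ (hlen s), tableW, zipWith_range _ [] (okWit_spec h).1, eq_map_getD hU,
      dot_map_range]
    simp only [row, List.map_map, hor_map_range, Function.comp_def]
    rw [sum_congr rfl fun b hb => congrArg (U.getD b 0 * ·) (colW_eq hd h (mem_range.1 hb))]
    simp only [s, mul_sum, sum_mul]
    rw [sum_comm]
    refine sum_congr rfl fun a _ => ?_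
    rw [sum_comm]
    exact sum_congr rfl fun i _ => sum_congr rfl fun b _ => by ring
  have hsmall : ∀ y ∈ (row s).flatten, y < 2 ^ P.S := by
    intro y hy
    obtain ⟨l, hl, hyl⟩ := List.mem_flatten.1 hy
    obtain ⟨a, ha, rfl⟩ := List.mem_map.1 hl
    obtain ⟨i, -, rfl⟩ := List.mem_map.1 hyl
    exact lt_of_le_of_lt (rowC_le hc h hU sU (List.mem_range.1 ha) i).1
      (Nat.pow_lt_pow_right (by norm_num) (by omega))
  have hrep : List.replicate (row s).flatten.length (2 ^ (P.S - P.cbits) - 1)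
      = (List.replicate P.NA (List.replicate (P.n + 1) (2 ^ (P.S - P.cbits) - 1))).flatten := by
    rw [List.flatten_replicate_replicate]
    congr 1
    simp [row, List.length_flatten, List.map_map, Function.comp_def, List.map_const', List.sum_replicate]
  have hM : mask P = hor P.S (List.replicate (row s).flatten.length (2 ^ (P.S - P.cbits) - 1)) := by
    rw [hrep, hor_flatten P.S (P.n + 1) _ (fun l hl => by simp [List.eq_of_mem_replicate hl]),
      mask, join_eq _ _ _ (by simpa using hd), List.map_replicate,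
      join_eq _ _ _ (by simpa using hd')]
  have hR : rowsR P (tableW P ags) (mask P) U
      = hor (P.S * (P.n + 1)) ((List.range P.NA).map fun a =>
          ∑ i ∈ range (P.n + 1), rowC P wit ags U a i * 2 ^ (P.S * i)) := by
    have := mask_hor P.S P.cbits (by omega) _ hsmall
    rw [← hdot, ← hM] at this
    show (dot U (tableW P ags) >>> P.cbits) &&& mask P = _
    rw [this, List.map_flatten, hor_flatten P.S (P.n + 1) _ fun l hl => by
      obtain ⟨l', hl', rfl⟩ := List.mem_map.1 hl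
      simp [hlen s l' hl']]
    simp only [row, List.map_map, Function.comp_def, hor_map_range]
    rfl
  have hg : ∀ x ∈ (List.range P.NA).map (fun a =>
      ∑ i ∈ range (P.n + 1), rowC P wit ags U a i * 2 ^ (P.S * i)), x < 2 ^ (P.S * (P.n + 1)) := by
    intro x hx
    obtain ⟨a, ha, rfl⟩ := List.mem_map.1 hx
    have := hor_lt P.S ((List.range (P.n + 1)).map (rowC P wit ags U a)) fun y hy => by
      obtain ⟨i, -, rfl⟩ := List.mem_map.1 hy
      exact lt_of_le_of_lt (rowC_le hc h hU sU (List.mem_range.1 ha) i).2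
        (Nat.pow_lt_pow_right (by norm_num) (by omega))
    simpa [hor_map_range] using this
  rw [lin, hR, rowsB_hor _ _ _ _ _ (by simp [hW]) hg]
  conv_lhs => rw [eq_map_getD hW, dot_map_range]
  rw [hor_map_range]
  simp only [coefL, mul_sum, sum_mul]
  rw [sum_comm]
  exact sum_congr rfl fun i _ => sum_congr rfl fun a _ => by ring

/-- Weights computed from slot values. -/
lemma outW_eq {k tot : ℕ} {c : ℕ → ℕ} (h : ∀ i < P.n + 1, c i < 2 ^ P.S) :
    outW P k tot (hor P.S ((List.range (P.n + 1)).map c))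
      = norm (2 ^ k) tot ((List.range P.n).map fun i => c (i + 1)) := by
  simp only [outW, force_eq]
  rw [slots_hor _ _ _ (by simp) fun y hy => ?_]
  · rw [List.range_succ_eq_map, List.map_cons, List.tail_cons, List.map_map]
    rfl
  obtain ⟨i, hi, rfl⟩ := List.mem_map.1 hy
  exact h i (List.mem_range.1 hi)

lemma length_norm (K tot : ℕ) (n : ℕ) (c : ℕ → ℕ) :
    (norm K tot ((List.range n).map c)).length = n + 1 := by simp [norm]

/-- Every grid atom gives at most what the certain atom gives. -/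
lemma le_top (hc : okCfg P = true) {f : (Fin 3 → ℝ) → ℝ} (hf : Adm f) {i : ℕ} (hi : i < P.n) :
    sym6 f (vr (P.Z (i + 1))) ≤ sym6 f (vr (P.Z 0)) := by
  obtain ⟨_, _, _, _, _, _, _, _, hZ0, hZ, -⟩ := okCfg_spec hc
  have hz0 : vr (P.Z 0) = fun i => (P.D : ℝ) * single 0 i := by
    funext i; rw [hZ0]; fin_cases i <;> simp [vr, co, single]
  have := sym6_le_single hf (vr_nonneg (P.Z (i + 1)))
  rwa [mass_vr, hZ _ hi, ← hf.sym6.smul _ _ (Nat.cast_nonneg _) (single_nonneg 0), ← hz0] at this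

/-- The certified inequality for one pair of weight lists. -/
lemma pair_sum_le (hc : okCfg P = true) (h : okWit P wit ags = true) (W U : List ℕ)
    {f : (Fin 3 → ℝ) → ℝ} (hf : Adm f) :
    (P.D : ℝ) * ∑ a ∈ range P.NA, ∑ b ∈ range P.NB,
        (mult P.sym a b : ℝ) * ((W.getD a 0 : ℝ) * U.getD b 0 * hPair f (P.A a) (P.R b))
      ≤ (2 * P.DA * P.DB : ℕ) *
        (∑ i ∈ range P.n, (coefL P wit ags W U (i + 1) : ℝ)
            * (sym6 f (vr (P.Z (i + 1))) - sym6 f (vr (P.Z 0)))
          + (∑ a ∈ range P.NA, ∑ b ∈ range P.NB,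
              (mult P.sym a b : ℝ) * ((W.getD a 0 : ℝ) * U.getD b 0)) * sym6 f (vr (P.Z 0))) := by
  obtain ⟨hD, _, _, _, _, _, _, _, hZ0, hZ, hA, hR⟩ := okCfg_spec hc
  set g : ℕ → ℝ := fun j => sym6 f (vr (P.Z j)) with hg
  set Q : ℝ := 2 ^ P.cbits with hQ
  have hQ0 : 0 < Q := by positivity
  set K : ℝ := ((2 * P.DA * P.DB : ℕ) : ℝ) with hK
  set w : ℕ → ℝ := fun a => (W.getD a 0 : ℝ)
  set u : ℕ → ℝ := fun b => (U.getD b 0 : ℝ)
  set m : ℕ → ℕ → ℝ := fun a b => (mult P.sym a b : ℝ)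
  have hterm : ∀ a ∈ range P.NA, ∀ b ∈ range P.NB,
      Q * (P.D * (m a b * (w a * u b * hPair f (P.A a) (P.R b)))) ≤
        K * (∑ i ∈ range P.n, w a * (u b * (tau' P wit a b i : ℝ)) * (g (i + 1) - g 0)
          + Q * (m a b * (w a * u b) * g 0)) := by
    intro a ha b hb
    simp only [tau', m]
    have hok := okM_spec h (mem_range.1 ha) (mem_range.1 hb)
    generalize mult P.sym a b = k at hok ⊢
    match k with
    | 0 => simp
    | k + 1 =>
      have := pair_le hD hZ hZ0 (hok (by simp)).1 hf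
      rw [hA a (mem_range.1 ha), hR b (mem_range.1 hb)] at this
      have h2 := mul_le_mul_of_nonneg_left this
        (show 0 ≤ ((k + 1 : ℕ) : ℝ) * (w a * u b) by positivity)
      refine le_trans (le_of_eq ?_) (h2.trans (le_of_eq ?_))
      · simp only [hPair, hQ]; push_cast; ring
      · simp only [hK, hQ, hg, mul_add, mul_sum]
        push_cast
        congr 1
        · exact sum_congr rfl fun i _ => by ring
        · ring
  have hr : ∀ i < P.n, Q * (coefL P wit ags W U (i + 1) : ℝ)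
      ≤ ∑ a ∈ range P.NA, w a * ∑ b ∈ range P.NB, u b * (tau' P wit a b i : ℝ) := by
    intro i _
    have : 2 ^ P.cbits * coefL P wit ags W U (i + 1)
        ≤ ∑ a ∈ range P.NA, W.getD a 0 * ∑ b ∈ range P.NB, U.getD b 0 * tau' P wit a b i := by
      rw [coefL, mul_sum]
      refine sum_le_sum fun a _ => ?_
      rw [mul_left_comm]
      exact Nat.mul_le_mul_left _ (Nat.mul_div_le _ _)
    simp only [hQ, w, u]
    exact_mod_cast this
  refine le_of_mul_le_mul_left ?_ hQ0
  simp only [mul_sum]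
  refine (sum_le_sum fun a ha => sum_le_sum fun b hb => hterm a ha b hb).trans ?_
  simp only [← mul_sum]
  rw [mul_left_comm Q K]
  refine mul_le_mul_of_nonneg_left ?_ (Nat.cast_nonneg _)
  simp only [sum_add_distrib, mul_add, ← mul_sum]
  refine add_le_add ?_ (le_of_eq ?_)
  · rw [sum_congr rfl fun a _ => sum_comm, sum_comm, mul_sum]
    refine sum_le_sum fun i hi => ?_
    simp only [← sum_mul, ← mul_sum, ← mul_assoc Q]
    exact mul_le_mul_of_nonpos_right (hr i (mem_range.1 hi))
      (sub_nonpos.2 (le_top hc hf (mem_range.1 hi)))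
  · simp only [← sum_mul]
    rfl

/-- An inequality for the pair sums gives an upgrade of the product family. -/
lemma upg_of_main (hc : okCfg P = true) {c : ℕ → ℕ} {tot k : ℕ} {W U : List ℕ}
    (hs : (norm (2 ^ k) tot ((List.range P.n).map c)).sum = tot)
    (hk : ∀ f, Adm f → (P.D : ℝ) * ∑ a ∈ range P.NA, ∑ b ∈ range P.NB,
        (W.getD a 0 : ℝ) * U.getD b 0 * hPair f (P.A a) (P.R b)
      ≤ (2 * P.DA * P.DB : ℕ) * 2 ^ P.bits * (∑ i ∈ range P.n, ((c i / 2 ^ k : ℕ) : ℝ)
          * (sym6 f (vr (P.Z (i + 1))) - sym6 f (vr (P.Z 0)))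
        + tot * sym6 f (vr (P.Z 0)))) :
    Upg (prodW (wt P.bits P.NA W) (wt P.bits P.NB U))
      (prodV (pts P.DA P.NA P.A) (pts P.DB P.NB P.R))
      (wt P.bits (P.n + 1) (norm (2 ^ k) tot ((List.range P.n).map c))) (pts P.D (P.n + 1) P.Z) := by
  intro f hf
  obtain ⟨hD, hDA, hDB, -⟩ := okCfg_spec hc
  have hmain := hk f hf
  simp only [norm, List.map_map, List.sum_cons, Function.comp_def] at hs ⊢
  rw [sum_map_range] at hs ⊢
  set o : ℕ → ℕ := fun i => c i / 2 ^ k
  set g : ℕ → ℝ := fun j => sym6 f (vr (P.Z j))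
  set o0 := tot - ∑ i ∈ range P.n, o i
  have hsum : ∑ i ∈ range P.n, (o i : ℝ) * (g (i + 1) - g 0) + tot * g 0
      = (o0 : ℝ) * g 0 + ∑ i ∈ range P.n, (o i : ℝ) * g (i + 1) := by
    have e : (o0 : ℝ) + ∑ i ∈ range P.n, (o i : ℝ) = tot := by exact_mod_cast hs
    rw [← e]; simp only [mul_sub, sum_sub_distrib, ← sum_mul]; ring
  have hl : ev (prodW (wt P.bits P.NA W) (wt P.bits P.NB U))
      (prodV (pts P.DA P.NA P.A) (pts P.DB P.NB P.R)) f = 9 / (6 * (2 ^ P.bits) ^ 2 * P.DA * P.DB)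
        * ∑ a ∈ range P.NA, ∑ b ∈ range P.NB,
          (W.getD a 0 : ℝ) * U.getD b 0 * hPair f (P.A a) (P.R b) := by
    simp only [ev, Fintype.sum_prod_type, mul_sum, sum_range, hPair_eq]
    refine sum_congr rfl fun a _ => sum_congr rfl fun b _ => sum_congr rfl fun p _ => ?_
    have hx : prodV (pts P.DA P.NA P.A) (pts P.DB P.NB P.R) (a, b, p)
        = fun i => (9 / ((P.DA : ℝ) * P.DB)) * (vr (P.A a) i * vr (P.R b) (p i)) := by
      funext i; simp only [prodV, pts]; ring
    rw [hx, hf.sym6.smul _ _ (by positivity) fun i => mul_nonneg (vr_nonneg _ _) (vr_nonneg _ _)]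
    simp only [prodW, wt]; ring
  have hr : ev (wt P.bits (P.n + 1) (o0 :: (List.range P.n).map o)) (pts P.D (P.n + 1) P.Z) f
      = 3 / (2 ^ P.bits * P.D) * ((o0 : ℝ) * g 0 + ∑ i ∈ range P.n, (o i : ℝ) * g (i + 1)) := by
    simp only [ev, sum_range, Fin.sum_univ_succ, mul_add, mul_sum]
    have hx : ∀ j : Fin (P.n + 1), sym6 f (pts P.D (P.n + 1) P.Z j) = 3 / (P.D : ℝ) * g j :=
      fun j => hf.sym6.smul _ _ (by positivity) (vr_nonneg _)
    simp only [hx, wt, Fin.val_succ, Fin.val_zero, List.getD_cons_zero, List.getD_cons_succ]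
    congr 1
    · ring
    · refine sum_congr rfl fun i _ => ?_
      rw [List.getD_eq_getElem _ _ (by simp)]
      simp; ring
  rw [hl, hr, ← hsum]
  calc 9 / (6 * (2 ^ P.bits : ℝ) ^ 2 * P.DA * P.DB)
        * ∑ a ∈ range P.NA, ∑ b ∈ range P.NB,
          (W.getD a 0 : ℝ) * U.getD b 0 * hPair f (P.A a) (P.R b)
      = 9 / (6 * (2 ^ P.bits : ℝ) ^ 2 * P.DA * P.DB * P.D) * ((P.D : ℝ)
        * ∑ a ∈ range P.NA, ∑ b ∈ range P.NB,
          (W.getD a 0 : ℝ) * U.getD b 0 * hPair f (P.A a) (P.R b)) := by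
        have : (P.D : ℝ) ≠ 0 := by positivity
        field_simp
    _ ≤ _ * (((2 * P.DA * P.DB : ℕ) : ℝ) * 2 ^ P.bits * _) :=
        mul_le_mul_of_nonneg_left hmain (by positivity)
    _ = _ := by
      push_cast
      have : (P.DA : ℝ) ≠ 0 := by positivity
      have : (P.DB : ℝ) ≠ 0 := by positivity
      have : (P.D : ℝ) ≠ 0 := by positivity
      field_simp
      ring

/-- The product of two weight lists read from one contraction. -/
noncomputable def mulW (P : Cfg) (tot : ℕ) (W : List ℕ) (R : ℕ) : List ℕ :=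
  outW P P.bits tot (lin P W R)

/-- The product of two different weight lists on a family with one row for both orders. -/
noncomputable def mulX (P : Cfg) (tot : ℕ) (W : List ℕ) (RW : ℕ) (U : List ℕ) (RU : ℕ) : List ℕ :=
  outW P (P.bits + 1) tot (Nat.add (lin P W RU) (lin P U RW))

/-- The computed weights are an upgrade of the product family. -/
theorem mulW_sound (hc : okCfg P = true) (h : okWit P wit ags = true) (hW : W.length = P.NA)
    (hU : U.length = P.NB) (sW : W.sum = 2 ^ P.bits) (sU : U.sum ≤ 2 ^ P.bits)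
    (hsym : P.sym = true → W = U ∧ P.NA = P.NB ∧ P.A = P.R) {T : List ℕ}
    (hT : T = mulW P U.sum W (rowsR P (tableW P ags) (mask P) U)) (sT : T.sum = U.sum) :
    T.length = P.n + 1 ∧ Upg (prodW (wt P.bits P.NA W) (wt P.bits P.NB U))
      (prodV (pts P.DA P.NA P.A) (pts P.DB P.NB P.R))
      (wt P.bits (P.n + 1) T) (pts P.D (P.n + 1) P.Z) := by
  obtain ⟨_, _, _, _, _, _, _, hS, -⟩ := okCfg_spec hc
  have hb : ∀ i < P.n + 1, coefL P wit ags W U i < 2 ^ P.S := fun i _ =>
    lt_of_le_of_lt (coefL_le hc h hW hU sW.le sU i) (Nat.pow_lt_pow_right (by norm_num) (by omega))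
  rw [mulW, lin_eq hc h hW hU sU, outW_eq hb] at hT
  subst hT
  refine ⟨length_norm _ _ _ _, upg_of_main hc sT fun f hf => ?_⟩
  have hm : ∀ F : ℕ → ℕ → ℝ, (P.sym = true → ∀ a b, F a b = F b a) →
      ∑ a ∈ range P.NA, ∑ b ∈ range P.NB, (mult P.sym a b : ℝ) * F a b
        = ∑ a ∈ range P.NA, ∑ b ∈ range P.NB, F a b := by
    intro F hF
    rcases hs : P.sym with _ | _
    · simp [mult]
    · rw [← (hsym hs).2.1]
      exact sum_mult (hF hs) _
  have key := pair_sum_le hc h W U hf
  rw [hm (fun a b => (W.getD a 0 : ℝ) * U.getD b 0 * hPair f (P.A a) (P.R b))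
      (fun hs a b => by rw [(hsym hs).1, (hsym hs).2.2, hPair_comm]; ring),
    hm (fun a b => (W.getD a 0 : ℝ) * U.getD b 0)
      (fun hs a b => by rw [(hsym hs).1]; ring)] at key
  refine key.trans ?_
  rw [mul_assoc ((2 * P.DA * P.DB : ℕ) : ℝ)]
  refine mul_le_mul_of_nonneg_left ?_ (Nat.cast_nonneg _)
  rw [mul_add, mul_sum]
  refine add_le_add (sum_le_sum fun i hi => ?_) (le_of_eq ?_)
  · rw [← mul_assoc]
    refine mul_le_mul_of_nonpos_right ?_ (sub_nonpos.2 (le_top hc hf (mem_range.1 hi)))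
    exact_mod_cast Nat.mul_div_le (coefL P wit ags W U (i + 1)) (2 ^ P.bits)
  · simp only [← mul_sum, ← sum_mul]
    have e1 : ∑ a ∈ range P.NA, (W.getD a 0 : ℝ) = 2 ^ P.bits := by
      exact_mod_cast (sum_getD hW).trans sW
    have e2 : ∑ b ∈ range P.NB, (U.getD b 0 : ℝ) = U.sum := by exact_mod_cast sum_getD hU
    rw [e1, e2]; ring

/-- The same for two different lists on a symmetric table. -/
theorem mulX_sound (hc : okCfg P = true) (h : okWit P wit ags = true) (hW : W.length = P.NA)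
    (hU : U.length = P.NB) (sW : W.sum = 2 ^ P.bits) (sU : U.sum ≤ 2 ^ P.bits)
    (hs : P.sym = true) (hN : P.NA = P.NB) (hA : P.A = P.R) {T : List ℕ}
    (hT : T = mulX P U.sum W (rowsR P (tableW P ags) (mask P) W) U
      (rowsR P (tableW P ags) (mask P) U)) (sT : T.sum = U.sum) :
    T.length = P.n + 1 ∧ Upg (prodW (wt P.bits P.NA W) (wt P.bits P.NB U))
      (prodV (pts P.DA P.NA P.A) (pts P.DB P.NB P.R))
      (wt P.bits (P.n + 1) T) (pts P.D (P.n + 1) P.Z) := by
  obtain ⟨_, _, _, _, _, _, _, hS, -⟩ := okCfg_spec hc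
  set c : ℕ → ℕ := fun i => coefL P wit ags W U i + coefL P wit ags U W i with hcdef
  have hb : ∀ i < P.n + 1, c i < 2 ^ P.S := by
    intro i _
    have h1 := coefL_le hc h hW hU sW.le sU i
    have h2 := coefL_le hc h (hN ▸ hU) (hN.symm ▸ hW) sU sW.le i
    refine lt_of_le_of_lt (add_le_add h1 h2) ?_
    rw [← two_mul, ← pow_succ']
    exact Nat.pow_lt_pow_right (by norm_num) (by omega)
  have hadd : hor P.S ((List.range (P.n + 1)).map (coefL P wit ags W U))
      + hor P.S ((List.range (P.n + 1)).map (coefL P wit ags U W))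
      = hor P.S ((List.range (P.n + 1)).map c) := by
    simp only [hor_map_range, ← sum_add_distrib, hcdef]
    exact sum_congr rfl fun i _ => by ring
  rw [mulX, lin_eq hc h hW hU sU, lin_eq hc h (hN ▸ hU) (hN.symm ▸ hW) sW.le, Nat.add_eq, hadd,
    outW_eq hb] at hT
  subst hT
  refine ⟨length_norm _ _ _ _, upg_of_main hc sT fun f hf => ?_⟩
  have k1 := pair_sum_le hc h W U hf
  have k2 := pair_sum_le hc h U W hf
  rw [← hN] at k1 k2 ⊢
  rw [← hA] at k1 k2 ⊢
  rw [hs] at k1 k2
  have hm : ∀ F : ℕ → ℕ → ℝ,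
      ∑ a ∈ range P.NA, ∑ b ∈ range P.NA, (mult true a b : ℝ) * F a b
        + ∑ a ∈ range P.NA, ∑ b ∈ range P.NA, (mult true a b : ℝ) * F b a
      = 2 * ∑ a ∈ range P.NA, ∑ b ∈ range P.NA, F a b := by
    intro F
    simp only [← sum_add_distrib, ← mul_add]
    rw [sum_mult (F := fun a b => F a b + F b a) (fun a b => add_comm _ _), mul_sum]
    simp only [sum_add_distrib, mul_sum, two_mul]
    rw [sum_comm (f := fun a b => F b a)]
  set h' : ℕ → ℕ → ℝ := fun a b => hPair f (P.A a) (P.A b)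
  set w : ℕ → ℝ := fun a => (W.getD a 0 : ℝ)
  set u : ℕ → ℝ := fun b => (U.getD b 0 : ℝ)
  have e1 := hm fun a b => w a * u b * h' a b
  have e2 := hm fun a b => w a * u b
  have s1 : ∑ a ∈ range P.NA, ∑ b ∈ range P.NA, (mult true a b : ℝ) * (w b * u a * h' b a)
      = ∑ a ∈ range P.NA, ∑ b ∈ range P.NA, (mult true a b : ℝ) * (u a * w b * h' a b) :=
    sum_congr rfl fun a _ => sum_congr rfl fun b _ => by
      simp only [h']; rw [hPair_comm f (P.A b) (P.A a)]; ring
  have s2 : ∑ a ∈ range P.NA, ∑ b ∈ range P.NA, (mult true a b : ℝ) * (w b * u a)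
      = ∑ a ∈ range P.NA, ∑ b ∈ range P.NA, (mult true a b : ℝ) * (u a * w b) :=
    sum_congr rfl fun a _ => sum_congr rfl fun b _ => by ring
  rw [s1] at e1
  rw [s2] at e2
  have ht : ∑ a ∈ range P.NA, ∑ b ∈ range P.NA, w a * u b = 2 ^ P.bits * U.sum := by
    simp only [← mul_sum, ← sum_mul, w, u]
    rw [show ∑ a ∈ range P.NA, (W.getD a 0 : ℝ) = 2 ^ P.bits by
        exact_mod_cast (sum_getD hW).trans sW,
      show ∑ b ∈ range P.NA, (U.getD b 0 : ℝ) = U.sum by exact_mod_cast sum_getD (hN ▸ hU)]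
  rw [ht] at e2
  set g0 := sym6 f (vr (P.Z 0))
  set G : ℕ → ℝ := fun i => sym6 f (vr (P.Z (i + 1))) - g0
  have hfl : ∑ i ∈ range P.n, (coefL P wit ags W U (i + 1) : ℝ) * G i
      + ∑ i ∈ range P.n, (coefL P wit ags U W (i + 1) : ℝ) * G i
      ≤ 2 * 2 ^ P.bits * ∑ i ∈ range P.n, ((c (i + 1) / 2 ^ (P.bits + 1) : ℕ) : ℝ) * G i := by
    rw [← sum_add_distrib, mul_sum]
    refine sum_le_sum fun i hi => ?_
    rw [← add_mul, ← mul_assoc, show (2 : ℝ) * 2 ^ P.bits = 2 ^ (P.bits + 1) by ring]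
    refine mul_le_mul_of_nonpos_right ?_ (sub_nonpos.2 (le_top hc hf (mem_range.1 hi)))
    exact_mod_cast Nat.mul_div_le (c (i + 1)) (2 ^ (P.bits + 1))
  have hK : (0 : ℝ) ≤ ((2 * P.DA * P.DB : ℕ) : ℝ) := Nat.cast_nonneg _
  have key := add_le_add k1 k2
  rw [← mul_add, e1, ← mul_add] at key
  have key2 := key.trans (mul_le_mul_of_nonneg_left (le_of_eq (show _ =
    (∑ i ∈ range P.n, (coefL P wit ags W U (i + 1) : ℝ) * G i
      + ∑ i ∈ range P.n, (coefL P wit ags U W (i + 1) : ℝ) * G i)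
      + (∑ a ∈ range P.NA, ∑ b ∈ range P.NA, (mult true a b : ℝ) * (w a * u b)
        + ∑ a ∈ range P.NA, ∑ b ∈ range P.NA, (mult true a b : ℝ) * (u a * w b)) * g0 by ring)) hK)
  rw [e2] at key2
  have key3 := key2.trans (mul_le_mul_of_nonneg_left (add_le_add hfl le_rfl) hK)
  linarith

end Vale.Agent.P154.Neg.Grid
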