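import Vale.Agent.P154.Neg.RunBound
import Vale.Agent.P154.Neg.Grid.Step

/-!
# P154: families on the grid used by the kernel runs

The parameters of a run fix three products: a single edge, two edges and two grid families. Mixtures
of families are rounded down, the rest going to the certain atom.
-/

namespace Vale.Agent.P154.Neg.Grid

open Finset

/-- Image of an atom of mass `D` under the edge `-p/q`, scaled by `3 q`. -/
def eImg (p q D : ℕ) (z : Atom) : Atom :=
  ((q + p) * D - 3 * p * z.1, (q + p) * D - 3 * p * z.2.1, (q + p) * D - 3 * p * z.2.2)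

/-- Data of a run. -/
structure Par where
  /-- mass of the grid atoms -/
  D : ℕ
  /-- number of grid atoms other than the certain one -/
  n : ℕ
  /-- depth of the packing -/
  dep : ℕ
  /-- slot width -/
  S : ℕ
  /-- weights are multiples of `2 ^ (-bits)` -/
  bits : ℕ
  /-- coefficients are multiples of `2 ^ (-cbits)` -/
  cbits : ℕ
  /-- numerator of the edge -/
  p : ℕ
  /-- denominator of the edge -/
  q : ℕ
  /-- index of the uniform atom -/
  u : ℕ
  /-- grid -/
  Z : ℕ → Atom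

/-- A single edge, paired with the uniform vector. -/
def Par.one (P : Par) : Cfg :=
  ⟨P.D, 3 * P.q * P.D, 3, P.n, P.n + 1, 1, P.S, P.dep, P.bits, P.cbits, P.Z,
    fun a => eImg P.p P.q P.D (P.Z a), fun _ => (1, 1, 1), false⟩

/-- Product of two edge images. -/
def Par.two (P : Par) : Cfg :=
  ⟨P.D, 3 * P.q * P.D, 3 * P.q * P.D, P.n, P.n + 1, P.n + 1, P.S, P.dep, P.bits, P.cbits, P.Z,
    fun a => eImg P.p P.q P.D (P.Z a), fun a => eImg P.p P.q P.D (P.Z a), true⟩

/-- Product of two grid families. -/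
def Par.four (P : Par) : Cfg :=
  ⟨P.D, P.D, P.D, P.n, P.n + 1, P.n + 1, P.S, P.dep, P.bits, P.cbits, P.Z, P.Z, P.Z, true⟩

/-- The edge of a run. -/
noncomputable def Par.edgeVal (P : Par) : ℝ := -(P.p : ℝ) / P.q

/-- Atom number `j` of a grid packed in fields of sixteen bits. -/
def gridAt (G j : ℕ) : Atom :=
  let w := Nat.shiftRight G (48 * j)
  (Nat.mod w (2 ^ 16), Nat.mod (Nat.shiftRight w 16) (2 ^ 16), Nat.mod (Nat.shiftRight w 32) (2 ^ 16))

/-- Equality of lists as a Boolean. -/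
def sameL : List ℕ → List ℕ → Bool
  | [], [] => true
  | a :: s, b :: t => Nat.beq a b && sameL s t
  | _, _ => false

lemma sameL_eq : ∀ s t : List ℕ, sameL s t = true → s = t
  | [], [], _ => rfl
  | [], _ :: _, h => by simp [sameL] at h
  | _ :: _, [], h => by simp [sameL] at h
  | a :: s, b :: t, h => by
    simp only [sameL, Bool.and_eq_true] at h
    rw [Nat.eq_of_beq_eq_true h.1, sameL_eq s t h.2]

/-- Evaluate a list, check its total, continue. -/
noncomputable def chk (tot : ℕ) (l : List ℕ) (k : List ℕ → Bool) : Bool :=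
  forceL l fun T => Nat.beq T.sum tot && k T

lemma chk_spec {tot : ℕ} {l : List ℕ} {k : List ℕ → Bool} (h : chk tot l k = true) :
    l.sum = tot ∧ k l = true := by
  rw [chk, forceL_eq, Bool.and_eq_true, Nat.beq_eq] at h
  exact h

/-- Check of the static data. -/
def parOk (P : Par) : Bool :=
  Nat.ble 1 P.q && Nat.ble (2 * P.p) P.q && Nat.ble P.u P.n &&
    Nat.beq (3 * (P.Z P.u).1) P.D && Nat.beq (3 * (P.Z P.u).2.1) P.D &&
    Nat.beq (3 * (P.Z P.u).2.2) P.D && okCfg P.one && okCfg P.two && okCfg P.four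

/-- Checked witnesses of the three products. -/
def TabsOk (P : Par) (g1 g2 g4 : List (List ℕ)) : Prop :=
  (∃ w, okWit P.one w g1 = true) ∧ (∃ w, okWit P.two w g2 = true) ∧ ∃ w, okWit P.four w g4 = true

/-- Weights of the grid as a real family. -/
noncomputable def Par.fw (P : Par) (W : List ℕ) : Fin (P.n + 1) → ℝ := wt P.bits (P.n + 1) W

/-- The grid as atoms of mass three. -/
noncomputable def Par.fv (P : Par) : Fin (P.n + 1) → Fin 3 → ℝ := pts P.D (P.n + 1) P.Z

/-- Initial weights. -/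
def start (P : Par) : List ℕ := 2 ^ P.bits :: List.replicate P.n 0

/-- The uniform atom. -/
def unitL (P : Par) : List ℕ :=
  (List.range (P.n + 1)).map fun i => bif Nat.beq i P.u then 2 ^ P.bits else 0

/-- Combination of lists with multipliers. -/
def combL (N : ℕ) : List (ℕ × List ℕ) → List ℕ
  | [] => List.replicate N 0
  | x :: L => List.zipWith (fun f c => Nat.add (Nat.mul x.1 f) c) x.2 (combL N L)

/-- Weights of a mixture, scaled down by `2 ^ k`, of total `tot`. -/
def mixL (P : Par) (k tot : ℕ) (L : List (ℕ × List ℕ)) : List ℕ :=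
  norm (2 ^ k) tot (combL (P.n + 1) L).tail

/-- The sum of the squared second moments of a family, times `2 ^ bits * D ^ 4`. -/
noncomputable def x2 (P : Par) (W : List ℕ) : ℕ :=
  dot W ((List.range (P.n + 1)).map fun a =>
    force (P.D * P.D - 3 * ((P.Z a).1 * (P.Z a).2.1
      + (P.Z a).1 * (P.Z a).2.2 + (P.Z a).2.1 * (P.Z a).2.2)) fun x => Nat.mul x x)

variable {P : Par} {W U : List ℕ}

lemma parOk_spec (hp : parOk P = true) :
    0 < P.q ∧ 2 * P.p ≤ P.q ∧ P.u ≤ P.n ∧ (∀ i, 3 * co (P.Z P.u) i = P.D) ∧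
      okCfg P.one = true ∧ okCfg P.two = true ∧ okCfg P.four = true := by
  simp only [parOk, Bool.and_eq_true, Nat.ble_eq] at hp
  obtain ⟨⟨⟨⟨⟨⟨⟨⟨hq, hpq⟩, hu⟩, h0⟩, h1⟩, h2⟩, c1⟩, c2⟩, c4⟩ := hp
  refine ⟨hq, hpq, hu, fun i => ?_, c1, c2, c4⟩
  fin_cases i
  · exact Nat.eq_of_beq_eq_true h0
  · exact Nat.eq_of_beq_eq_true h1
  · exact Nat.eq_of_beq_eq_true h2

lemma grid_spec (hp : parOk P = true) :
    0 < P.D ∧ P.Z 0 = (P.D, 0, 0) ∧ ∀ a < P.n + 1, tot3 (P.Z a) = P.D := by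
  obtain ⟨hD, -, -, -, -, -, -, -, hZ0, hZ, -⟩ := okCfg_spec (parOk_spec hp).2.2.2.2.2.2
  exact ⟨hD, hZ0, fun a ha => hZ a (Nat.lt_succ_iff.1 ha)⟩

lemma edgeVal_mem (hp : parOk P = true) : -1 / 2 ≤ P.edgeVal ∧ P.edgeVal ≤ 0 := by
  obtain ⟨hq, hpq, -⟩ := parOk_spec hp
  have h2 : (2 : ℝ) * P.p ≤ P.q := by exact_mod_cast hpq
  have hqR : (0 : ℝ) < P.q := by exact_mod_cast hq
  refine ⟨?_, div_nonpos_of_nonpos_of_nonneg (neg_nonpos.2 (Nat.cast_nonneg _)) hqR.le⟩
  rw [Par.edgeVal, div_le_div_iff₀ (by norm_num) hqR]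
  linarith

lemma fw_nonneg (W : List ℕ) (a : Fin (P.n + 1)) : 0 ≤ P.fw W a := wt_nonneg _ _ _ _

lemma fv_nonneg (a : Fin (P.n + 1)) (i : Fin 3) : 0 ≤ P.fv a i := pts_nonneg _ _ _ _ _

lemma ev_fw (W : List ℕ) {f : (Fin 3 → ℝ) → ℝ} (hf : Adm f) :
    ev (P.fw W) P.fv f = 3 / (2 ^ P.bits * P.D)
      * ∑ j ∈ range (P.n + 1), (W.getD j 0 : ℝ) * sym6 f (vr (P.Z j)) := by
  simp only [ev, sum_range, mul_sum]
  refine sum_congr rfl fun a _ => ?_
  have : sym6 f (P.fv a) = 3 / (P.D : ℝ) * sym6 f (vr (P.Z a)) :=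
    hf.sym6.smul _ _ (by positivity) (vr_nonneg _)
  rw [this, Par.fw, wt]; ring

lemma edge_pts (hp : parOk P = true) :
    (fun a => edge P.edgeVal (P.fv a))
      = pts (3 * P.q * P.D) (P.n + 1) (fun a => eImg P.p P.q P.D (P.Z a)) := by
  obtain ⟨hq, hpq, -⟩ := parOk_spec hp
  obtain ⟨hD, -, hZ⟩ := grid_spec hp
  funext a i
  have ht := hZ a a.2
  set z := P.Z a with hz
  have hle : ∀ i, 3 * P.p * co z i ≤ (P.q + P.p) * P.D := by
    intro i
    have : co z i ≤ P.D := by
      rw [← ht]; fin_cases i <;> simp [co, tot3] <;> omega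
    calc 3 * P.p * co z i ≤ 3 * P.p * P.D := Nat.mul_le_mul_left _ this
      _ ≤ _ := Nat.mul_le_mul_right _ (by omega)
  have he : co (eImg P.p P.q P.D z) i = (P.q + P.p) * P.D - 3 * P.p * co z i := by
    fin_cases i <;> rfl
  have hm : mass (fun i => 3 / (P.D : ℝ) * vr z i) = 3 := by
    have hDR : (P.D : ℝ) ≠ 0 := by positivity
    have : mass (fun i => 3 / (P.D : ℝ) * vr z i) = 3 / (P.D : ℝ) * mass (vr z) := by
      simp only [mass]; ring
    rw [this, mass_vr, ht]; field_simp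
  have hqR : (P.q : ℝ) ≠ 0 := by positivity
  have hDR : (P.D : ℝ) ≠ 0 := by positivity
  show edge _ (fun i => 3 / (P.D : ℝ) * vr z i) i = _
  simp only [edge, Par.edgeVal]
  rw [hm]
  simp only [pts, vr, he, ← hz, Nat.cast_sub (hle i)]
  push_cast
  field_simp
  ring

/-- Rounded weights with the deficit on the certain atom give at least as much. -/
lemma sum_le_norm (hp : parOk P = true) {x : ℕ → ℝ} {c : ℕ → ℕ} {k tot : ℕ} {s : ℝ}
    (hs : (norm (2 ^ k) tot ((List.range P.n).map c)).sum = tot)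
    (hx : ∑ j ∈ range (P.n + 1), x j = s * tot)
    (hc : ∀ i < P.n, s * ((c i / 2 ^ k : ℕ) : ℝ) ≤ x (i + 1)) {f : (Fin 3 → ℝ) → ℝ} (hf : Adm f) :
    3 / (2 ^ P.bits * P.D) * ∑ j ∈ range (P.n + 1), x j * sym6 f (vr (P.Z j))
      ≤ s * ev (P.fw (norm (2 ^ k) tot ((List.range P.n).map c))) P.fv f := by
  rw [ev_fw _ hf, mul_left_comm s]
  refine mul_le_mul_of_nonneg_left ?_ (by positivity)
  simp only [norm, List.map_map, List.sum_cons, Function.comp_def] at hs ⊢
  rw [sum_map_range] at hs ⊢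
  simp only [sum_range_succ', List.getD_cons_zero, List.getD_cons_succ]
  have e0 : x 0 = s * tot - ∑ i ∈ range P.n, x (i + 1) := by
    rw [← hx, sum_range_succ']; ring
  have e1 : ((tot - ∑ i ∈ range P.n, c i / 2 ^ k : ℕ) : ℝ)
      = tot - ∑ i ∈ range P.n, ((c i / 2 ^ k : ℕ) : ℝ) := by
    rw [eq_sub_iff_add_eq]; exact_mod_cast hs
  have key : ∑ i ∈ range P.n, (x (i + 1) - s * ((c i / 2 ^ k : ℕ) : ℝ))
      * (sym6 f (vr (P.Z (i + 1))) - sym6 f (vr (P.Z 0))) ≤ 0 :=
    sum_nonpos fun i hi => mul_nonpos_of_nonneg_of_nonpos (sub_nonneg.2 (hc i (mem_range.1 hi)))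
      (sub_nonpos.2 (le_top (parOk_spec hp).2.2.2.2.2.2 hf (mem_range.1 hi)))
  have e2 : ∑ i ∈ range P.n, ((((List.range P.n).map fun i => c i / 2 ^ k).getD i 0 : ℕ) : ℝ)
        * sym6 f (vr (P.Z (i + 1)))
      = ∑ i ∈ range P.n, ((c i / 2 ^ k : ℕ) : ℝ) * sym6 f (vr (P.Z (i + 1))) :=
    sum_congr rfl fun i hi => by
      rw [List.getD_eq_getElem _ _ (by simpa using mem_range.1 hi)]; simp
  rw [e2, e0, e1]
  simp only [sub_mul, mul_sub, sum_sub_distrib, mul_assoc, ← mul_sum, ← sum_mul] at key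
  simp only [mul_add, ← mul_assoc, sub_mul, mul_sub] at key ⊢
  linarith

lemma combL_spec {N : ℕ} : ∀ {L : List (ℕ × List ℕ)}, (∀ x ∈ L, x.2.length = N) →
    (combL N L).length = N ∧ ∀ j < N, (combL N L).getD j 0
      = ∑ i : Fin L.length, (L[i]).1 * (L[i]).2.getD j 0
  | [], _ => by simp [combL]
  | x :: L, h => by
    obtain ⟨h1, h2⟩ := combL_spec fun y hy => h y (List.mem_cons_of_mem _ hy)
    have hx := h x (by simp)
    refine ⟨by simp [combL, hx, h1], fun j hj => ?_⟩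
    simp only [List.length_cons, Fin.sum_univ_succ]
    simp only [Fin.getElem_fin, Fin.val_zero, Fin.val_succ, List.getElem_cons_zero,
      List.getElem_cons_succ, combL]
    rw [List.getD_eq_getElem _ _ (by simp [hx, h1, hj]), List.getElem_zipWith,
      Nat.add_eq, Nat.mul_eq]
    simp only [Fin.getElem_fin] at h2
    rw [← h2 j hj, List.getD_eq_getElem _ _ (by omega), List.getD_eq_getElem _ _ (by omega)]

lemma tail_map {N : ℕ} {C : List ℕ} (h : C.length = N + 1) :
    C.tail = (List.range N).map fun i => C.getD (i + 1) 0 := by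
  conv_lhs => rw [eq_map_getD h, List.range_succ_eq_map, List.map_cons, List.tail_cons, List.map_map]
  rfl

/-- A mixture of families, rounded. -/
theorem mix_le (hp : parOk P = true) {L : List (ℕ × List ℕ)} {k tot : ℕ} {s : ℝ} (hs0 : 0 < s)
    (hl : ∀ x ∈ L, x.2.length = P.n + 1) (hs : (mixL P k tot L).sum = tot) {r : ℝ}
    (hsum : ∑ i : Fin L.length, ((L[i]).1 : ℝ) * (L[i]).2.sum + r = s * tot)
    (hsk : s = 2 ^ k) {f : (Fin 3 → ℝ) → ℝ} (hf : Adm f) :
    (∑ i : Fin L.length, ((L[i]).1 : ℝ) * ev (P.fw (L[i]).2) P.fv f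
      + r / 2 ^ P.bits * (3 * sym6 f (single 0))) / s ≤ ev (P.fw (mixL P k tot L)) P.fv f := by
  obtain ⟨h1, h2⟩ := combL_spec hl
  obtain ⟨hD, hZ0, -⟩ := grid_spec hp
  rw [mixL, tail_map h1] at hs ⊢
  rw [div_le_iff₀ hs0, mul_comm _ s]
  have hN : ∀ i : Fin L.length,
      ∑ j ∈ range (P.n + 1), (((L[i]).2.getD j 0 : ℕ) : ℝ) = (L[i]).2.sum := fun i => by
    exact_mod_cast sum_getD (hl _ (List.getElem_mem i.2))
  refine le_trans (le_of_eq ?_) (sum_le_norm hp (x := fun j =>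
    ∑ i : Fin L.length, ((L[i]).1 : ℝ) * (L[i]).2.getD j 0 + if j = 0 then r else 0) hs ?_ ?_ hf)
  · simp only [add_mul, sum_add_distrib, mul_add, ite_mul, zero_mul, sum_ite_eq', mem_range,
      Nat.succ_pos', if_true]
    congr 1
    · simp only [ev_fw _ hf, sum_mul, mul_sum]
      rw [sum_comm]
      exact sum_congr rfl fun j _ => sum_congr rfl fun i _ => by ring
    · have hz0 : vr (P.Z 0) = fun i => (P.D : ℝ) * single 0 i := by
        funext i; rw [hZ0]; fin_cases i <;> simp [vr, co, single]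
      have hDR : (P.D : ℝ) ≠ 0 := by positivity
      rw [hz0, hf.sym6.smul _ _ (Nat.cast_nonneg _) (single_nonneg 0)]
      field_simp
  · simp only [sum_add_distrib, sum_ite_eq', mem_range, Nat.succ_pos', if_true]
    rw [sum_comm]
    simp only [← mul_sum, hN]
    exact hsum
  · intro i hi
    rw [if_neg (Nat.succ_ne_zero i), add_zero, hsk]
    have := Nat.mul_div_le ((combL (P.n + 1) L).getD (i + 1) 0) (2 ^ k)
    conv at this => rhs; rw [h2 (i + 1) (by omega)]
    exact_mod_cast this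

lemma length_mixL {L : List (ℕ × List ℕ)} {k tot : ℕ} (hl : ∀ x ∈ L, x.2.length = P.n + 1) :
    (mixL P k tot L).length = P.n + 1 := by
  rw [mixL, tail_map (combL_spec hl).1, length_norm]

/-- A convex or subconvex combination of families. -/
theorem mix_upg (hp : parOk P = true) {L : List (ℕ × List ℕ)}
    (hl : ∀ x ∈ L, x.2.length = P.n + 1 ∧ x.2.sum = 2 ^ P.bits) {tot : ℕ}
    (ht : (L.map Prod.fst).sum = tot) (hs : (mixL P P.bits tot L).sum = tot) :
    Upg (fun a => ∑ i : Fin L.length, ((L[i]).1 : ℝ) / 2 ^ P.bits * P.fw (L[i]).2 a) P.fv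
      (P.fw (mixL P P.bits tot L)) P.fv := by
  intro f hf
  have := mix_le hp (s := 2 ^ P.bits) (by positivity) (fun x hx => (hl x hx).1) hs (r := 0) ?_
    rfl hf
  · refine le_trans (le_of_eq ?_) this
    simp only [zero_div, zero_mul, add_zero, Finset.sum_div, ev, Finset.sum_mul, Finset.mul_sum]
    rw [Finset.sum_comm]
    exact sum_congr rfl fun i _ => sum_congr rfl fun a _ => by ring
  · have e : ∀ i : Fin L.length, (((L[i]).2.sum : ℕ) : ℝ) = 2 ^ P.bits := fun i => by
      exact_mod_cast (hl _ (List.getElem_mem i.2)).2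
    simp only [e, add_zero, ← sum_mul, ← ht, ← Fin.sum_univ_fun_getElem]
    push_cast
    rw [mul_comm]
    rfl

/-- One edge. -/
theorem one_upg (hp : parOk P = true) {w g1 : List (List ℕ)} (h : okWit P.one w g1 = true)
    (hW : W.length = P.n + 1) (sW : W.sum = 2 ^ P.bits) {T : List ℕ}
    (hT : T = mulW P.one (2 ^ P.bits) W (rowsR P.one (tableW P.one g1) (mask P.one) [2 ^ P.bits]))
    (sT : T.sum = 2 ^ P.bits) :
    T.length = P.n + 1 ∧
      Upg (P.fw W) (fun a => edge P.edgeVal (P.fv a)) (P.fw T) P.fv := by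
  obtain ⟨-, -, -, -, hc, -, -⟩ := parOk_spec hp
  obtain ⟨hlen, hu⟩ := mulW_sound (U := [2 ^ P.bits]) hc h hW rfl sW
    (by simp [Par.one]) (fun h => absurd h (by simp [Par.one]))
    (T := T) (by rw [hT]; simp) (by simpa using sT)
  refine ⟨hlen, fun f hf => le_trans (le_of_eq ?_) (hu f hf)⟩
  rw [edge_pts hp]
  have h1 : pts 3 1 (fun _ => ((1, 1, 1) : Atom)) 0 = fun _ => (1 : ℝ) := by
    funext i; fin_cases i <;> simp [pts, vr, co]
  show _ = ev (prodW (wt P.bits (P.n + 1) W) (wt P.bits 1 [2 ^ P.bits]))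
    (prodV (pts (3 * P.q * P.D) (P.n + 1) (fun a => eImg P.p P.q P.D (P.Z a)))
      (pts 3 1 fun _ => (1, 1, 1))) f
  simp only [ev, Fintype.sum_prod_type, prodW, Fin.sum_univ_one]
  refine sum_congr rfl fun a _ => ?_
  have hp1 : ∀ p : Equiv.Perm (Fin 3), prodV (pts (3 * P.q * P.D) (P.n + 1)
      (fun a => eImg P.p P.q P.D (P.Z a))) (pts 3 1 fun _ => ((1, 1, 1) : Atom)) (a, 0, p)
      = pts (3 * P.q * P.D) (P.n + 1) (fun a => eImg P.p P.q P.D (P.Z a)) a := by
    intro p; funext i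
    simp only [prodV]; rw [h1]; simp
  simp only [hp1, sum_const, card_univ, Fintype.card_perm, Fintype.card_fin, nsmul_eq_mul]
  simp only [Par.fw, wt, Fin.val_zero, List.getD_cons_zero]
  push_cast [Nat.factorial]
  field_simp

/-- The uniform atom serves a root without children. -/
theorem unit_upg (hp : parOk P = true) :
    (unitL P).length = P.n + 1 ∧ (unitL P).sum = 2 ^ P.bits ∧
      Upg (fun _ : PUnit => (1 : ℝ)) (fun _ _ => (1 : ℝ)) (P.fw (unitL P)) P.fv := by
  obtain ⟨-, -, hu, hZu, -⟩ := parOk_spec hp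
  obtain ⟨hD, -, -⟩ := grid_spec hp
  have hget : ∀ j < P.n + 1, (unitL P).getD j 0 = if j = P.u then 2 ^ P.bits else 0 := by
    intro j hj
    rw [unitL, List.getD_eq_getElem _ _ (by simpa using hj)]
    simp only [List.getElem_map, List.getElem_range]
    by_cases h : j = P.u
    · subst h; simp
    · have hb : Nat.beq j P.u = false := Bool.eq_false_iff.2 fun hb => h (Nat.eq_of_beq_eq_true hb)
      simp [h, hb]
  have hlen : (unitL P).length = P.n + 1 := by simp [unitL]
  refine ⟨hlen, ?_, fun f hf => ?_⟩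
  · rw [← sum_getD hlen, sum_congr rfl fun j hj => hget j (mem_range.1 hj)]
    simp [Nat.lt_succ_of_le hu]
  · rw [ev_fw _ hf, sum_eq_single P.u (fun j hj hne => by rw [hget j (mem_range.1 hj), if_neg hne]; simp)
      (fun h => absurd (mem_range.2 (Nat.lt_succ_of_le hu)) h), hget _ (Nat.lt_succ_of_le hu)]
    have e : vr (P.Z P.u) = fun i => (P.D : ℝ) / 3 * 1 := by
      funext i
      have : (3 : ℝ) * vr (P.Z P.u) i = P.D := by
        simp only [vr]; exact_mod_cast hZu i
      linarith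
    rw [e, hf.sym6.smul _ (fun _ => (1 : ℝ)) (by positivity) (fun _ => zero_le_one)]
    have hDR : (P.D : ℝ) ≠ 0 := by positivity
    simp only [ev, univ_unique, sum_singleton, one_mul, if_pos]
    push_cast
    refine le_of_eq ?_
    field_simp

/-- The certain atom starts every run. -/
theorem start_upg (hp : parOk P = true) :
    (start P).length = P.n + 1 ∧ (start P).sum = 2 ^ P.bits ∧
      Upg (fun _ : PUnit => (3 : ℝ)) (fun _ => single 0) (P.fw (start P)) P.fv := by
  obtain ⟨hD, hZ0, -⟩ := grid_spec hp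
  refine ⟨by simp [start], by simp [start], fun f hf => le_of_eq ?_⟩
  have hz0 : vr (P.Z 0) = fun i => (P.D : ℝ) * single 0 i := by
    funext i; rw [hZ0]; fin_cases i <;> simp [vr, co, single]
  rw [ev_fw _ hf, sum_range_succ', sum_eq_zero fun j hj => by simp [start], zero_add, hz0,
    hf.sym6.smul _ _ (Nat.cast_nonneg _) (single_nonneg 0)]
  have hDR : (P.D : ℝ) ≠ 0 := by positivity
  simp only [ev, univ_unique, sum_singleton, start, List.getD_cons_zero]
  push_cast
  field_simp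

/-- The squared second moment of a family. -/
theorem ev_sX2 (hp : parOk P = true) (hW : W.length = P.n + 1) :
    ev (P.fw W) P.fv sX2 = (x2 P W : ℝ) / (2 ^ P.bits * P.D ^ 4) := by
  obtain ⟨hD, -, hZ⟩ := grid_spec hp
  have e : x2 P W = ∑ a ∈ range (P.n + 1), W.getD a 0 *
      ((P.D * P.D - 3 * ((P.Z a).1 * (P.Z a).2.1 + (P.Z a).1 * (P.Z a).2.2
        + (P.Z a).2.1 * (P.Z a).2.2)) ^ 2) := by
    rw [x2]
    conv_lhs => rw [eq_map_getD hW, dot_map_range]
    simp only [force_eq, Nat.mul_eq, sq]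
  rw [e, sum_range]
  push_cast
  rw [Finset.sum_div]
  simp only [ev]
  refine sum_congr rfl fun a _ => ?_
  have ht := hZ a a.2
  simp only [tot3] at ht
  have hle : 3 * ((P.Z a).1 * (P.Z a).2.1 + (P.Z a).1 * (P.Z a).2.2 + (P.Z a).2.1 * (P.Z a).2.2)
      ≤ P.D * P.D := by
    rw [← ht]
    zify
    nlinarith [sq_nonneg (((P.Z a).1 : ℤ) - (P.Z a).2.1), sq_nonneg (((P.Z a).1 : ℤ) - (P.Z a).2.2),
      sq_nonneg (((P.Z a).2.1 : ℤ) - (P.Z a).2.2)]
  have hDR : (P.D : ℝ) ≠ 0 := by positivity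
  have hsum : ((P.Z a).1 : ℝ) + (P.Z a).2.1 + (P.Z a).2.2 = P.D := by exact_mod_cast ht
  have hm : mass (P.fv a) = 3 := by
    simp only [Par.fv, pts, mass, vr, co, Matrix.cons_val_zero, Matrix.cons_val_one, Matrix.cons_val]
    rw [← mul_add, ← mul_add, hsum]; field_simp
  have hX : sX (P.fv a) = ((P.D * P.D - 3 * ((P.Z a).1 * (P.Z a).2.1 + (P.Z a).1 * (P.Z a).2.2
      + (P.Z a).2.1 * (P.Z a).2.2) : ℕ) : ℝ) / (P.D * P.D) := by
    rw [Nat.cast_sub hle]
    simp only [sX, q2, hm, esy2]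
    simp only [Par.fv, pts, vr, co, Matrix.cons_val_zero, Matrix.cons_val_one, Matrix.cons_val]
    push_cast
    field_simp
  rw [sX2, sym6_mG, mG, sNorm, hm, hX, Par.fw, wt]
  field_simp

end Vale.Agent.P154.Neg.Grid
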