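import Vale.Agent.P154.Neg.Grid.Run

/-!
# P154: roots with few children, computed from the weights of one level

`kids4` computes the families for one to four children; a predicate `K j` on weight lists stands for
domination of a root with `j` children, closed under the upgrades of the three products.
-/

namespace Vale.Agent.P154.Neg.Grid

open Finset

/-- The families for one, two, three and four children, with the contractions of three of them. -/
noncomputable def kids4 (P : Par) (C1 C2 C4 : List ℕ) (M : ℕ) (W : List ℕ)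
    (k : List ℕ → List ℕ → List ℕ → List ℕ → ℕ → ℕ → Bool) : Bool :=
  force (rowsR P.one C1 M [2 ^ P.bits]) fun R0 =>
    chk (2 ^ P.bits) (mulW P.one (2 ^ P.bits) W R0) fun one =>
    force (rowsR P.two C2 M W) fun Rw =>
    chk (2 ^ P.bits) (mulW P.two (2 ^ P.bits) W Rw) fun two =>
    force (rowsR P.four C4 M one) fun R1 => force (rowsR P.four C4 M two) fun R2 =>
    chk (2 ^ P.bits) (mulX P.four (2 ^ P.bits) two R2 one R1) fun three =>
    chk (2 ^ P.bits) (mulW P.four (2 ^ P.bits) two R2) fun four => k one two three four R1 R2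

/-- Weights of a family of total one. -/
def Full (P : Par) (W : List ℕ) : Prop := W.length = P.n + 1 ∧ W.sum = 2 ^ P.bits

variable {P : Par} {g1 g2 g4 : List (List ℕ)}

lemma mask_two (P : Par) : mask P.two = mask P.four := rfl

lemma mask_one (P : Par) : mask P.one = mask P.four := rfl

/-- A symmetric product of a family with itself. -/
lemma sq_upg (hp : parOk P = true) (ht : TabsOk P g1 g2 g4) {W : List ℕ} (hW : Full P W) {T : List ℕ}
    (hT : T = mulW P.four (2 ^ P.bits) W (rowsR P.four (tableW P.four g4) (mask P.four) W))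
    (sT : T.sum = 2 ^ P.bits) :
    Full P T ∧ Upg (prodW (P.fw W) (P.fw W)) (prodV P.fv P.fv) (P.fw T) P.fv := by
  obtain ⟨w, hw⟩ := ht.2.2
  obtain ⟨h1, h2⟩ := mulW_sound (parOk_spec hp).2.2.2.2.2.2 hw hW.1 hW.1 hW.2 hW.2.le
    (fun _ => ⟨rfl, rfl, rfl⟩) (T := T) (by rw [hW.2]; exact hT) (by rw [hW.2]; exact sT)
  exact ⟨⟨h1, sT⟩, h2⟩

/-- A product of two edge images. -/
lemma edge2_upg (hp : parOk P = true) (ht : TabsOk P g1 g2 g4) {W : List ℕ} (hW : Full P W)
    {T : List ℕ}
    (hT : T = mulW P.two (2 ^ P.bits) W (rowsR P.two (tableW P.two g2) (mask P.four) W))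
    (sT : T.sum = 2 ^ P.bits) :
    Full P T ∧ Upg (prodW (P.fw W) (P.fw W))
      (prodV (fun a => edge P.edgeVal (P.fv a)) (fun a => edge P.edgeVal (P.fv a))) (P.fw T) P.fv := by
  obtain ⟨w, hw⟩ := ht.2.1
  obtain ⟨h1, h2⟩ := mulW_sound (parOk_spec hp).2.2.2.2.2.1 hw hW.1 hW.1 hW.2 hW.2.le
    (fun _ => ⟨rfl, rfl, rfl⟩) (T := T) (by rw [hW.2]; exact hT) (by rw [hW.2]; exact sT)
  rw [edge_pts hp]
  exact ⟨⟨h1, sT⟩, h2⟩

/-- A product of two families, the second of any total at most one. -/
lemma cross_upg (hp : parOk P = true) (ht : TabsOk P g1 g2 g4) {W U : List ℕ} (hW : Full P W)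
    (hU : U.length = P.n + 1) {tot : ℕ} (sU : U.sum = tot) (htot : tot ≤ 2 ^ P.bits) {T : List ℕ}
    (hT : T = mulX P.four tot W (rowsR P.four (tableW P.four g4) (mask P.four) W) U
      (rowsR P.four (tableW P.four g4) (mask P.four) U)) (sT : T.sum = tot) :
    T.length = P.n + 1 ∧ Upg (prodW (P.fw W) (P.fw U)) (prodV P.fv P.fv) (P.fw T) P.fv := by
  obtain ⟨w, hw⟩ := ht.2.2
  exact mulX_sound (parOk_spec hp).2.2.2.2.2.2 hw hW.1 hU hW.2 (sU ▸ htot) rfl rfl rfl
    (T := T) (by rw [sU]; exact hT) (by rw [sU]; exact sT)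

/-- Soundness of the four families for a predicate closed under joining roots. -/
theorem kids4_spec (hp : parOk P = true) (ht : TabsOk P g1 g2 g4) {W : List ℕ} (hW : Full P W)
    {K : ℕ → (Fin (P.n + 1) → ℝ) → (Fin (P.n + 1) → Fin 3 → ℝ) → Prop}
    (h1 : K 1 (P.fw W) (fun a => edge P.edgeVal (P.fv a)))
    (hadd : ∀ i j w v u z w', (∀ b, 0 ≤ u b) → (∀ b m, 0 ≤ z b m) → K i w v → K j u z →
      Upg (prodW w u) (prodV v z) w' P.fv → K (i + j) w' P.fv)
    (hupg : ∀ i w v w', K i w v → Upg w v w' P.fv → K i w' P.fv)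
    {k : List ℕ → List ℕ → List ℕ → List ℕ → ℕ → ℕ → Bool}
    (h : kids4 P (tableW P.one g1) (tableW P.two g2) (tableW P.four g4) (mask P.four) W k = true) :
    ∃ one two three four,
      (Full P one ∧ K 1 (P.fw one) P.fv) ∧ (Full P two ∧ K 2 (P.fw two) P.fv) ∧
      (Full P three ∧ K 3 (P.fw three) P.fv) ∧ (Full P four ∧ K 4 (P.fw four) P.fv) ∧
      k one two three four (rowsR P.four (tableW P.four g4) (mask P.four) one)
        (rowsR P.four (tableW P.four g4) (mask P.four) two) = true := by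
  simp only [kids4, force_eq] at h
  obtain ⟨s1, h⟩ := chk_spec h
  obtain ⟨s2, h⟩ := chk_spec h
  obtain ⟨s3, h⟩ := chk_spec h
  obtain ⟨s4, h⟩ := chk_spec h
  generalize eone : mulW P.one _ W _ = one at h s1 s2 s3 s4
  generalize etwo : mulW P.two _ W _ = two at h s2 s3 s4
  generalize ethree : mulX P.four _ two _ one _ = three at h s3
  generalize efour : mulW P.four _ two _ = four at h s4
  obtain ⟨w, hw⟩ := ht.1
  obtain ⟨l1, u1⟩ := one_upg hp hw hW.1 hW.2 (T := one) (by rw [← eone, mask_one]) s1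
  obtain ⟨f2, u2⟩ := edge2_upg hp ht hW etwo.symm s2
  have hv : ∀ b m, 0 ≤ edge P.edgeVal (P.fv b) m := fun b m =>
    edge_nonneg_neg (edgeVal_mem hp).1 ((edgeVal_mem hp).2.trans zero_le_one) (fv_nonneg b) m
  have k1 := hupg 1 _ _ _ h1 u1
  have k2 : K 2 (P.fw two) P.fv := hadd 1 1 _ _ _ _ _ (fw_nonneg W) hv h1 h1 u2
  obtain ⟨l3, u3⟩ := cross_upg hp ht f2 l1 s1 le_rfl ethree.symm s3
  obtain ⟨f4, u4⟩ := sq_upg hp ht f2 efour.symm s4
  exact ⟨one, two, three, four, ⟨⟨l1, s1⟩, k1⟩, ⟨f2, k2⟩,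
    ⟨⟨l3, s3⟩, hadd 2 1 _ _ _ _ _ (fw_nonneg one) fv_nonneg k2 k1 u3⟩,
    ⟨f4, hadd 2 2 _ _ _ _ _ (fw_nonneg two) fv_nonneg k2 k2 u4⟩, h⟩

end Vale.Agent.P154.Neg.Grid

namespace Vale.Agent.P154.Neg.Grid

/-- The checks of the columns, one Boolean each. -/
noncomputable def witBools (P : Cfg) (wit ags : List (List ℕ)) : List Bool :=
  List.zipWith (fun b p => Nat.beq p.1.length P.NA && Nat.beq p.2.length P.NA &&
    (List.zipWith (fun a q => okM P (mult P.sym a b) a b q.1 q.2) (List.range P.NA)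
      (List.zip p.1 p.2)).all id)
    (List.range P.NB) (List.zip wit ags)

/-- Check of the `i`-th block of `w` columns. -/
noncomputable def okWitPart (P : Cfg) (wit ags : List (List ℕ)) (w i : ℕ) : Bool :=
  Nat.beq wit.length P.NB && Nat.beq ags.length P.NB &&
    (((witBools P wit ags).drop (w * i)).take w).all id

/-- The blocks make up the whole check. -/
lemma okWit_of_parts {P : Cfg} {wit ags : List (List ℕ)} {w m : ℕ} (hN : P.NB ≤ w * m)
    (h0 : 0 < m) (h : ∀ i < m, okWitPart P wit ags w i = true) : okWit P wit ags = true := by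
  have key : ∀ j ≤ m, ((witBools P wit ags).take (w * j)).all id = true := by
    intro j hj
    induction j with
    | zero => simp
    | succ j ih =>
      have := h j hj
      simp only [okWitPart, Bool.and_eq_true] at this
      rw [Nat.mul_succ, List.take_add, List.all_append, ih (Nat.le_of_succ_le hj), this.2]
      rfl
  have hl := h 0 h0
  simp only [okWitPart, Bool.and_eq_true, Nat.beq_eq] at hl
  have hlen : (witBools P wit ags).length ≤ w * m := by
    simp only [witBools, List.length_zipWith, List.length_range, List.length_zip]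
    omega
  have := key m le_rfl
  rw [List.take_of_length_le hlen] at this
  show (_ && _ && (witBools P wit ags).all id) = true
  simp only [Bool.and_eq_true, Nat.beq_eq]
  exact ⟨⟨hl.1.1, hl.1.2⟩, this⟩

end Vale.Agent.P154.Neg.Grid
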