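import Vale.Agent.P154.Neg.MixDom
import Vale.Agent.P154.Neg.Grid.RunKids

/-!
# P154: runs on Poisson trees

A level is the Poisson mixture of roots with up to sixteen children: counts four to eight are four
children joined with a mixture, counts nine to sixteen eight children joined with another. At the end
the families for zero to fourteen children and lower bounds of the tails bound `avP`.
-/

namespace Vale.Agent.P154.Neg.Grid

open Finset Filter Topology ENNReal

/-- Lower bound of the weight of `k` children, times `2 ^ bits`. -/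
def qk (Qs : List ℕ) (k : ℕ) : ℕ := Qs.getD k 0

/-- Lower bound of the weight of more than `j` children, times `2 ^ bits`. -/
def tailQ (Qs : List ℕ) (j : ℕ) : ℕ :=
  sumUp (fun i => qk Qs (j + 1 + i)) (Qs.length - (j + 1))

/-- Counts below four. -/
def lowL (P : Par) (Qs : List ℕ) (one two three : List ℕ) : List (ℕ × List ℕ) :=
  [(qk Qs 0, unitL P), (qk Qs 1, one), (qk Qs 2, two), (qk Qs 3, three)]

/-- Counts joined with four children. -/
def midL (P : Par) (Qs : List ℕ) (one two three four : List ℕ) : List (ℕ × List ℕ) :=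
  [(qk Qs 4, unitL P), (qk Qs 5, one), (qk Qs 6, two), (qk Qs 7, three), (qk Qs 8, four)]

/-- Counts joined with eight children. -/
def highL (Qs : List ℕ) (one two three four eight : List ℕ) : List (ℕ × List ℕ) :=
  [(qk Qs 9, one), (qk Qs 10, two), (qk Qs 11, three), (qk Qs 12, four), (qk Qs 13, eight),
    (qk Qs 14, eight), (qk Qs 15, eight), (qk Qs 16, eight)]

/-- Total of the multipliers. -/
def totL (L : List (ℕ × List ℕ)) : ℕ := (L.map Prod.fst).sum

/-- Check of `k` levels from `W` to `W'`, the tables being given. -/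
noncomputable def runP (P : Par) (Qs : List ℕ) (C1 C2 C4 : List ℕ) (M : ℕ) :
    ℕ → List ℕ → List ℕ → Bool :=
  Nat.rec (fun W W' => sameL W W') fun _ ih W W' =>
    kids4 P C1 C2 C4 M W fun one two three four _ _ =>
    force (rowsR P.four C4 M four) fun R4 =>
    chk (2 ^ P.bits) (mulW P.four (2 ^ P.bits) four R4) fun eight =>
    force (totL (lowL P Qs one two three)) fun t0 =>
    chk t0 (mixL P P.bits t0 (lowL P Qs one two three)) fun low =>
    force (totL (midL P Qs one two three four)) fun t1 =>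
    chk t1 (mixL P P.bits t1 (midL P Qs one two three four)) fun mid =>
    force (rowsR P.four C4 M mid) fun Rm =>
    chk t1 (mulX P.four t1 four R4 mid Rm) fun upper =>
    force (totL (highL Qs one two three four eight)) fun t2 =>
    chk t2 (mixL P P.bits t2 (highL Qs one two three four eight)) fun high =>
    force (rowsR P.four C4 M high) fun Rh => force (rowsR P.four C4 M eight) fun R8 =>
    chk t2 (mulX P.four t2 eight R8 high Rh) fun top =>
    chk (2 ^ P.bits) (mixL P 0 (2 ^ P.bits) [(1, low), (1, upper), (1, top)]) fun W1 => ih W1 W'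

/-- Check of `k` levels from `W` to `W'`. -/
noncomputable def poiOk (P : Par) (Qs : List ℕ) (g1 g2 g4 : List (List ℕ)) (k : ℕ)
    (W W' : List ℕ) : Bool :=
  forceL (tableW P.one g1) fun C1 => forceL (tableW P.two g2) fun C2 =>
    forceL (tableW P.four g4) fun C4 => force (mask P.four) fun M =>
      runP P Qs C1 C2 C4 M k W W'

/-- Lower bounds of the Poisson weights of mean `dn / dd`, given `exp (dn / dd) ≤ E / 2 ^ 40`. -/
def qOk (P : Par) (Qs : List ℕ) (dn dd E : ℕ) : Bool :=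
  Nat.ble 1 dd && Nat.ble 17 Qs.length && Nat.ble (sumUp (qk Qs) 17) (2 ^ P.bits) &&
    allUp (fun k => Nat.ble (qk Qs k * k.factorial * E * dd ^ k)
      (2 ^ P.bits * 2 ^ 40 * dn ^ k)) Qs.length

/-- The families of the end of a run. -/
def endL (P : Par) (f1 f2 f3 f4 f5 f6 f7 f8 f10 f12 f14 : List ℕ) : List (List ℕ) :=
  [unitL P, f1, f2, f3, f4, f5, f6, f7, f8, f10, f10, f12, f12, f14, f14]

/-- The final inequality. -/
noncomputable def endVal (P : Par) (Qs : List ℕ) (dn dd num den : ℕ) (L : List (List ℕ)) : Bool :=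
  force (2 ^ P.bits * P.D ^ 4) fun M =>
    allUp (fun j => Nat.ble (x2 P (L.getD j [])) M) 15 &&
      Nat.ble (dn * den * (M * 2 ^ P.bits))
        (dn * num * (M * 2 ^ P.bits)
          + den * dd * sumUp (fun j => tailQ Qs j * (M - x2 P (L.getD j []))) 15)

/-- Check of the end of a run against the threshold `num / den`. -/
noncomputable def poiEndOk (P : Par) (Qs : List ℕ) (dn dd : ℕ) (g1 g2 g4 : List (List ℕ))
    (W : List ℕ) (num den : ℕ) : Bool :=
  forceL (tableW P.one g1) fun C1 => forceL (tableW P.two g2) fun C2 =>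
    forceL (tableW P.four g4) fun C4 => force (mask P.four) fun M => Nat.ble 1 den &&
    kids4 P C1 C2 C4 M W fun one two three four R1 R2 =>
    force (rowsR P.four C4 M four) fun R4 =>
    chk (2 ^ P.bits) (mulX P.four (2 ^ P.bits) four R4 one R1) fun five =>
    chk (2 ^ P.bits) (mulX P.four (2 ^ P.bits) four R4 two R2) fun six =>
    force (rowsR P.four C4 M three) fun R3 =>
    chk (2 ^ P.bits) (mulX P.four (2 ^ P.bits) four R4 three R3) fun seven =>
    chk (2 ^ P.bits) (mulW P.four (2 ^ P.bits) four R4) fun eight =>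
    force (rowsR P.four C4 M eight) fun R8 =>
    chk (2 ^ P.bits) (mulX P.four (2 ^ P.bits) eight R8 two R2) fun ten =>
    chk (2 ^ P.bits) (mulX P.four (2 ^ P.bits) eight R8 four R4) fun twelve =>
    force (rowsR P.four C4 M six) fun R6 =>
    chk (2 ^ P.bits) (mulX P.four (2 ^ P.bits) eight R8 six R6) fun fourteen =>
    endVal P Qs dn dd num den (endL P one two three four five six seven eight ten twelve fourteen)

lemma runP_succ (P : Par) (Qs : List ℕ) (C1 C2 C4 : List ℕ) (M k : ℕ) (W W' : List ℕ) :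
    runP P Qs C1 C2 C4 M (k + 1) W W' =
    kids4 P C1 C2 C4 M W fun one two three four _ _ =>
    force (rowsR P.four C4 M four) fun R4 =>
    chk (2 ^ P.bits) (mulW P.four (2 ^ P.bits) four R4) fun eight =>
    force (totL (lowL P Qs one two three)) fun t0 =>
    chk t0 (mixL P P.bits t0 (lowL P Qs one two three)) fun low =>
    force (totL (midL P Qs one two three four)) fun t1 =>
    chk t1 (mixL P P.bits t1 (midL P Qs one two three four)) fun mid =>
    force (rowsR P.four C4 M mid) fun Rm =>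
    chk t1 (mulX P.four t1 four R4 mid Rm) fun upper =>
    force (totL (highL Qs one two three four eight)) fun t2 =>
    chk t2 (mixL P P.bits t2 (highL Qs one two three four eight)) fun high =>
    force (rowsR P.four C4 M high) fun Rh => force (rowsR P.four C4 M eight) fun R8 =>
    chk t2 (mulX P.four t2 eight R8 high Rh) fun top =>
    chk (2 ^ P.bits) (mixL P 0 (2 ^ P.bits) [(1, low), (1, upper), (1, top)]) fun W1 =>
      runP P Qs C1 C2 C4 M k W1 W' := rfl

variable {P : Par} {Qs : List ℕ} {g1 g2 g4 : List (List ℕ)} {d : ℝ} {n : ℕ}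

lemma qOk_spec {dn dd E : ℕ} (h : qOk P Qs dn dd E = true)
    (hE : Real.exp ((dn : ℝ) / dd) ≤ (E : ℝ) / 2 ^ 40) :
    17 ≤ Qs.length ∧ sumUp (qk Qs) 17 ≤ 2 ^ P.bits ∧ ∀ k < Qs.length,
      (qk Qs k : ℝ) / 2 ^ P.bits
        ≤ Real.exp (-((dn : ℝ) / dd)) * ((dn : ℝ) / dd) ^ k / k.factorial := by
  simp only [qOk, Bool.and_eq_true, Nat.ble_eq] at h
  obtain ⟨⟨⟨hdd, hlen⟩, hsum⟩, hk⟩ := h
  refine ⟨hlen, hsum, fun k hk' => ?_⟩
  have h := allUp_eq _ _ hk k hk'
  rw [Nat.ble_eq] at h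
  have hR : (qk Qs k : ℝ) * k.factorial * E * (dd : ℝ) ^ k
      ≤ 2 ^ P.bits * 2 ^ 40 * (dn : ℝ) ^ k := by exact_mod_cast h
  set e := Real.exp ((dn : ℝ) / dd)
  have he : 0 < e := Real.exp_pos _
  have hddR : (0 : ℝ) < (dd : ℝ) ^ k := pow_pos (by exact_mod_cast hdd) k
  rw [Real.exp_neg, div_pow, le_div_iff₀ (by positivity), ← div_eq_inv_mul,
    le_div_iff₀ he, div_mul_eq_mul_div, div_mul_eq_mul_div, div_le_div_iff₀ (by positivity) hddR]
  rw [le_div_iff₀ (by positivity)] at hE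
  refine le_of_mul_le_mul_right ?_ (show (0 : ℝ) < 2 ^ 40 by positivity)
  refine le_trans (le_of_eq ?_) ((mul_le_mul_of_nonneg_left hE
    (show 0 ≤ (qk Qs k : ℝ) * k.factorial * (dd : ℝ) ^ k by positivity)).trans
    ((le_of_eq (by ring)).trans (hR.trans (le_of_eq (by ring)))))
  ring

/-- A rational upper bound of the exponential from a truncated series. -/
lemma exp_le_of {x b : ℝ} {m n : ℕ} (hn : 0 < n) (hx : 0 ≤ x / (m : ℕ)) (hx1 : x / (m : ℕ) ≤ 1 ∧ 0 < m)
    (hb : ((∑ i ∈ Finset.range n, (x / (m : ℕ)) ^ i / i.factorial)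
      + (x / (m : ℕ)) ^ n * (n + 1) / (n.factorial * n)) ^ m ≤ b) :
    Real.exp x ≤ b := by
  refine le_trans ?_ hb
  have e : x = (m : ℝ) * (x / (m : ℕ)) := by
    rw [mul_div_cancel₀]
    exact Nat.cast_ne_zero.2 hx1.2.ne'
  conv_lhs => rw [e, Real.exp_nat_mul]
  exact pow_le_pow_left₀ (Real.exp_nonneg _) (Real.exp_bound' hx hx1.1 hn) m

/-- A mixture of roots with the counts `r₀, r₀ + 1, …`. -/
lemma mix_of_list (hp : parOk P = true) (r₀ : ℕ) {L : List (ℕ × List ℕ)}
    (hK : ∀ i : Fin L.length,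
      Full P (L[i]).2 ∧ KDom P.edgeVal d n (r₀ + i) (P.fw (L[i]).2) P.fv)
    {tot : ℕ} (ht : totL L = tot) (hs : (mixL P P.bits tot L).sum = tot) {c : ℕ → ℝ}
    (hc : ∀ i : Fin L.length, c (r₀ + i) = ((L[i]).1 : ℝ) / 2 ^ P.bits) :
    (mixL P P.bits tot L).length = P.n + 1 ∧
      MixDom P.edgeVal d n (Finset.Ico r₀ (r₀ + L.length)) c
        (P.fw (mixL P P.bits tot L)) P.fv := by
  have hl : ∀ x ∈ L, x.2.length = P.n + 1 ∧ x.2.sum = 2 ^ P.bits := by
    intro x hx
    obtain ⟨i, hi, rfl⟩ := List.getElem_of_mem hx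
    exact (hK ⟨i, hi⟩).1
  refine ⟨length_mixL fun x hx => (hl x hx).1, ?_⟩
  refine MixDom.upg (mix_lin (I := Fin L.length) (S := fun i => {r₀ + (i : ℕ)})
    (C := fun _ _ => 1) (W := fun i => P.fw (L[i]).2)
    (γ := fun i => ((L[i]).1 : ℝ) / 2 ^ P.bits) (fun i => by positivity) ?_
    (fun _ _ _ => zero_le_one) (fun i => fw_nonneg _) fv_nonneg (fun i => (hK i).2.mix) ?_)
    (mix_upg hp hl ht hs)
  · intro i
    simp only [Finset.singleton_subset_iff, Finset.mem_Ico]
    omega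
  · intro k hk
    rw [Finset.mem_Ico] at hk
    obtain ⟨j, rfl⟩ : ∃ j, k = r₀ + j := ⟨k - r₀, by omega⟩
    rw [hc ⟨j, by omega⟩]
    refine le_trans (le_of_eq ?_) (Finset.single_le_sum (fun i _ => ?_)
      (Finset.mem_univ (⟨j, by omega⟩ : Fin L.length)))
    · simp
    · split_ifs <;> positivity

lemma mixdom_congr {ι : Type} [Fintype ι] {w : ι → ℝ} {v : ι → Fin 3 → ℝ} {s t : Finset ℕ}
    {c c' : ℕ → ℝ} (h : MixDom P.edgeVal d n s c w v) (hst : s = t) (hc : ∀ k ∈ t, c' k ≤ c k) :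
    MixDom P.edgeVal d n t c' w v := by
  subst hst
  intro f hf
  refine le_trans (Finset.sum_le_sum fun k hk => ?_) (h f hf)
  exact mul_le_mul_left (ENNReal.ofReal_le_ofReal (hc k hk)) _

/-- The state of a Poisson run. -/
def PoiState (P : Par) (d : ℝ) (m : ℕ) (W : List ℕ) : Prop :=
  Full P W ∧ LDom P.edgeVal d m (P.fw W) P.fv

/-- The certain atom starts a run. -/
theorem poi_start (hp : parOk P = true) (hd : 0 ≤ d) : PoiState P d 0 (start P) := by
  obtain ⟨h1, h2, h3⟩ := start_upg hp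
  exact ⟨⟨h1, h2⟩,
    (ldom_top hd (edgeVal_mem hp).1 ((edgeVal_mem hp).2.trans zero_le_one) 0).upg h3⟩

/-- Roots with one to four children, from a level. -/
lemma kids4_poi (hp : parOk P = true) (ht : TabsOk P g1 g2 g4) {W : List ℕ}
    (h : PoiState P d n W) {k : List ℕ → List ℕ → List ℕ → List ℕ → ℕ → ℕ → Bool}
    (hk : kids4 P (tableW P.one g1) (tableW P.two g2) (tableW P.four g4) (mask P.four) W k = true) :
    ∃ one two three four,
      (Full P one ∧ KDom P.edgeVal d n 1 (P.fw one) P.fv) ∧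
      (Full P two ∧ KDom P.edgeVal d n 2 (P.fw two) P.fv) ∧
      (Full P three ∧ KDom P.edgeVal d n 3 (P.fw three) P.fv) ∧
      (Full P four ∧ KDom P.edgeVal d n 4 (P.fw four) P.fv) ∧
      k one two three four (rowsR P.four (tableW P.four g4) (mask P.four) one)
        (rowsR P.four (tableW P.four g4) (mask P.four) two) = true :=
  kids4_spec hp ht h.1 (K := fun j w v => KDom P.edgeVal d n j w v)
    (kdom_one (edgeVal_mem hp).1 ((edgeVal_mem hp).2.trans zero_le_one) h.2)
    (fun _ _ _ _ _ _ _ hu hz ha hb hh =>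
      (kdom_add (edgeVal_mem hp).1 ((edgeVal_mem hp).2.trans zero_le_one) ha hb hu hz).upg hh)
    (fun _ _ _ _ ha hh => ha.upg hh) hk

/-- A product of two families of known counts. -/
lemma kdom_cross (hp : parOk P = true) (ht : TabsOk P g1 g2 g4) {i j : ℕ} {W U T : List ℕ}
    (hW : Full P W ∧ KDom P.edgeVal d n i (P.fw W) P.fv)
    (hU : Full P U ∧ KDom P.edgeVal d n j (P.fw U) P.fv)
    (hT : T = mulX P.four (2 ^ P.bits) W (rowsR P.four (tableW P.four g4) (mask P.four) W) U
      (rowsR P.four (tableW P.four g4) (mask P.four) U)) (sT : T.sum = 2 ^ P.bits) :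
    Full P T ∧ KDom P.edgeVal d n (i + j) (P.fw T) P.fv := by
  obtain ⟨l, u⟩ := cross_upg hp ht hW.1 hU.1.1 hU.1.2 le_rfl hT sT
  exact ⟨⟨l, sT⟩, (kdom_add (edgeVal_mem hp).1 ((edgeVal_mem hp).2.trans zero_le_one) hW.2 hU.2
    (fw_nonneg U) fv_nonneg).upg u⟩

lemma kdom_sq (hp : parOk P = true) (ht : TabsOk P g1 g2 g4) {i : ℕ} {W T : List ℕ}
    (hW : Full P W ∧ KDom P.edgeVal d n i (P.fw W) P.fv)
    (hT : T = mulW P.four (2 ^ P.bits) W (rowsR P.four (tableW P.four g4) (mask P.four) W))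
    (sT : T.sum = 2 ^ P.bits) : Full P T ∧ KDom P.edgeVal d n (i + i) (P.fw T) P.fv := by
  obtain ⟨f, u⟩ := sq_upg hp ht hW.1 hT sT
  exact ⟨f, (kdom_add (edgeVal_mem hp).1 ((edgeVal_mem hp).2.trans zero_le_one) hW.2 hW.2
    (fw_nonneg W) fv_nonneg).upg u⟩

lemma sum_three (F : ℕ × List ℕ → ℝ) {a b c : ℕ × List ℕ} :
    ∑ i : Fin [a, b, c].length, F [a, b, c][i] = F a + F b + F c := by
  rw [show ∑ i : Fin [a, b, c].length, F [a, b, c][i] = ([a, b, c].map F).sum from
    Fin.sum_univ_fun_getElem _ _]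
  simp [add_assoc]

/-- One level of a Poisson run. -/
theorem poi_level (hp : parOk P = true) (ht : TabsOk P g1 g2 g4) (hd : 0 ≤ d) {W : List ℕ}
    (hsum : sumUp (qk Qs) 17 ≤ 2 ^ P.bits)
    (hq : ∀ k < 17, (qk Qs k : ℝ) / 2 ^ P.bits ≤ Real.exp (-d) * d ^ k / k.factorial)
    {k : ℕ} {W' : List ℕ}
    (hr : runP P Qs (tableW P.one g1) (tableW P.two g2) (tableW P.four g4) (mask P.four) (k + 1)
      W W' = true) (h : PoiState P d n W) :
    ∃ W1, PoiState P d (n + 1) W1 ∧
      runP P Qs (tableW P.one g1) (tableW P.two g2) (tableW P.four g4) (mask P.four) k W1 W'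
        = true := by
  have h0 := (edgeVal_mem hp).1
  have h1 := (edgeVal_mem hp).2.trans zero_le_one
  obtain ⟨lu, su, uu⟩ := unit_upg hp
  have kunit : Full P (unitL P) ∧ KDom P.edgeVal d n 0 (P.fw (unitL P)) P.fv :=
    ⟨⟨lu, su⟩, kdom_zero.upg uu⟩
  rw [runP_succ] at hr
  obtain ⟨one, two, three, four, k1, k2, k3, k4, hk⟩ := kids4_poi hp ht h hr
  simp only [force_eq] at hk
  obtain ⟨s8, hk⟩ := chk_spec hk
  obtain ⟨s0, hk⟩ := chk_spec hk
  obtain ⟨sm, hk⟩ := chk_spec hk
  obtain ⟨sU, hk⟩ := chk_spec hk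
  obtain ⟨sh, hk⟩ := chk_spec hk
  obtain ⟨sT, hk⟩ := chk_spec hk
  obtain ⟨sW, hk⟩ := chk_spec hk
  generalize e8 : mulW P.four _ four _ = eight at hk s8 sh sT sW
  generalize e0 : mixL P P.bits _ (lowL P Qs one two three) = low at hk s0 sW
  generalize em : mixL P P.bits _ (midL P Qs one two three four) = mid at hk sm sU sW
  generalize eu : mulX P.four _ four _ mid _ = upper at hk sU sW
  generalize eh : mixL P P.bits _ (highL Qs one two three four eight) = high at hk sh sT sW
  generalize et : mulX P.four _ eight _ high _ = top at hk sT sW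
  have k8 := kdom_sq hp ht k4 e8.symm s8
  set c : ℕ → ℝ := fun k => (qk Qs k : ℝ) / 2 ^ P.bits with hc
  have hc0 : ∀ k, 0 ≤ c k := fun k => by positivity
  have hsum' : totL (lowL P Qs one two three) + totL (midL P Qs one two three four)
      + totL (highL Qs one two three four eight) = sumUp (qk Qs) 17 := by
    simp only [totL, lowL, midL, highL, List.map_cons, List.map_nil, List.sum_cons, List.sum_nil,
      sumUp]
    ring
  obtain ⟨ll, d0⟩ := mix_of_list (c := c) hp 0 (L := lowL P Qs one two three)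
    (fun i => by
      match i with
      | ⟨0, _⟩ => exact kunit
      | ⟨1, _⟩ => exact k1
      | ⟨2, _⟩ => exact k2
      | ⟨3, _⟩ => exact k3)
    rfl (e0 ▸ s0)
    (fun i => by match i with | ⟨0, _⟩ | ⟨1, _⟩ | ⟨2, _⟩ | ⟨3, _⟩ => rfl)
  rw [e0] at ll d0
  obtain ⟨lm, dm⟩ := mix_of_list (c := fun r => c (4 + r)) hp 0
    (L := midL P Qs one two three four)
    (fun i => by
      match i with
      | ⟨0, _⟩ => exact kunit
      | ⟨1, _⟩ => exact k1
      | ⟨2, _⟩ => exact k2
      | ⟨3, _⟩ => exact k3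
      | ⟨4, _⟩ => exact k4)
    rfl (em ▸ sm)
    (fun i => by match i with | ⟨0, _⟩ | ⟨1, _⟩ | ⟨2, _⟩ | ⟨3, _⟩ | ⟨4, _⟩ => rfl)
  rw [em] at lm dm
  obtain ⟨lh, dh⟩ := mix_of_list (c := fun r => c (8 + r)) hp 1
    (L := highL Qs one two three four eight)
    (fun i => by
      match i with
      | ⟨0, _⟩ => exact k1
      | ⟨1, _⟩ => exact k2
      | ⟨2, _⟩ => exact k3
      | ⟨3, _⟩ => exact k4
      | ⟨4, _⟩ => exact ⟨k8.1, kdom_le hd h0 h1 (by norm_num) k8.2⟩
      | ⟨5, _⟩ => exact ⟨k8.1, kdom_le hd h0 h1 (by norm_num) k8.2⟩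
      | ⟨6, _⟩ => exact ⟨k8.1, kdom_le hd h0 h1 (by norm_num) k8.2⟩
      | ⟨7, _⟩ => exact k8)
    rfl (eh ▸ sh)
    (fun i => by
      match i with
      | ⟨0, _⟩ | ⟨1, _⟩ | ⟨2, _⟩ | ⟨3, _⟩ | ⟨4, _⟩ | ⟨5, _⟩ | ⟨6, _⟩ | ⟨7, _⟩ => rfl)
  rw [eh] at lh dh
  obtain ⟨lU, uU⟩ := cross_upg hp ht k4.1 lm sm (by omega) eu.symm sU
  obtain ⟨lT, uT⟩ := cross_upg hp ht k8.1 lh sh (by omega) et.symm sT
  have dU : MixDom P.edgeVal d n (Finset.Ico 4 9) c (P.fw upper) P.fv :=
    mixdom_congr ((mix_shift h0 h1 (fun k _ => hc0 _) k4.2 dm (fw_nonneg mid) fv_nonneg).upg uU)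
      (by simp only [midL, List.length_cons, List.length_nil]; decide) fun k hk => by
        rw [Finset.mem_Ico] at hk
        rw [show 4 + (k - 4) = k by omega]
  have dT : MixDom P.edgeVal d n (Finset.Ico 9 17) c (P.fw top) P.fv :=
    mixdom_congr ((mix_shift h0 h1 (fun k _ => hc0 _) k8.2 dh (fw_nonneg high) fv_nonneg).upg uT)
      (by simp only [highL, List.length_cons, List.length_nil]; decide) fun k hk => by
        rw [Finset.mem_Ico] at hk
        rw [show 8 + (k - 8) = k by omega]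
  have hlen : ∀ x ∈ [(1, low), (1, upper), (1, top)], (x : ℕ × List ℕ).2.length = P.n + 1 := by
    intro x hx
    simp only [List.mem_cons, List.not_mem_nil, or_false] at hx
    rcases hx with rfl | rfl | rfl <;> assumption
  refine ⟨_, ⟨⟨length_mixL hlen, sW⟩, ?_⟩, hk⟩
  have hsumR : ∑ k ∈ Finset.range 17, c k = (sumUp (qk Qs) 17 : ℕ) / (2 : ℝ) ^ P.bits := by
    rw [sumUp_eq]; push_cast; rw [Finset.sum_div]
  refine ldom_succ_of_mdom hd le_rfl h0 h1 (mdom_of_mix hd hd h0 h1 (s := Finset.range 17) (q := c)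
    (fun k _ => hc0 k) (fun k hk => hq k (Finset.mem_range.1 hk))
    (w := fun a => ∑ i : Fin 3, (1 : ℝ) * (![P.fw low, P.fw upper, P.fw top] i) a)
    (fun a => Finset.sum_nonneg fun i _ => by
      fin_cases i <;> exact mul_nonneg zero_le_one (fw_nonneg _ _))
    fv_nonneg ?_ ?_)
  · refine mix_lin (I := Fin 3) (S := ![Finset.Ico 0 4, Finset.Ico 4 9, Finset.Ico 9 17])
      (C := fun _ => c) (γ := fun _ => 1) (fun _ => zero_le_one) ?_ (fun _ k _ => hc0 k)
      (fun i a => by fin_cases i <;> exact fw_nonneg _ _) fv_nonneg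
      (fun i => by
        fin_cases i
        · exact d0
        · exact dU
        · exact dT) ?_
    · intro i
      fin_cases i <;> decide
    · intro k hk
      have := hc0 k
      simp only [Finset.mem_range] at hk
      simp only [Fin.sum_univ_three, Matrix.cons_val_zero, Matrix.cons_val_one, Matrix.cons_val,
        Finset.mem_Ico, one_mul]
      split_ifs <;> first | linarith | omega
  · intro f hf
    rw [hsumR]
    have htot := hsum'
    have hr : (0 : ℝ) ≤ 2 ^ P.bits - (sumUp (qk Qs) 17 : ℕ) := by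
      rw [sub_nonneg]; exact_mod_cast hsum
    refine le_trans (le_of_eq ?_) (mix_le hp (s := 1) zero_lt_one hlen sW
      (r := 2 ^ P.bits - (sumUp (qk Qs) 17 : ℕ)) ?_ (by norm_num) hf)
    · rw [sum_three (fun x => (x.1 : ℝ) * ev (P.fw x.2) P.fv f)]
      simp only [ev, Finset.sum_mul, Fin.sum_univ_three, Matrix.cons_val_zero,
        Matrix.cons_val_one, Matrix.cons_val, Nat.cast_one, one_mul, div_one,
        Finset.sum_add_distrib, add_mul]
      field_simp
    · rw [sum_three (fun x => (x.1 : ℝ) * x.2.sum)]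
      simp only [Nat.cast_one, one_mul]
      rw [s0, sU, sT, ← htot]
      push_cast
      ring

/-- A chunk of a Poisson run. -/
theorem poi_chunk (hp : parOk P = true) (ht : TabsOk P g1 g2 g4) (hd : 0 ≤ d)
    (hsum : sumUp (qk Qs) 17 ≤ 2 ^ P.bits)
    (hq : ∀ k < 17, (qk Qs k : ℝ) / 2 ^ P.bits ≤ Real.exp (-d) * d ^ k / k.factorial)
    {k m : ℕ} {W W' : List ℕ} (hr : poiOk P Qs g1 g2 g4 k W W' = true) (h : PoiState P d m W) :
    PoiState P d (m + k) W' := by
  simp only [poiOk, forceL_eq, force_eq] at hr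
  induction k generalizing m W with
  | zero => rw [← sameL_eq _ _ hr]; exact h
  | succ k ih =>
    obtain ⟨W1, h', hr'⟩ := poi_level hp ht hd hsum hq hr h
    rw [show m + (k + 1) = (m + 1) + k by omega]
    exact ih h' hr'

lemma tail_term {t x M B : ℝ} (hM : 0 < M) (hB : 0 < B) :
    t / B * (1 - x / M) = t * (M - x) / (B * M) := by
  field_simp

lemma end_alg {dn dd num den M B s : ℝ} (hdd : 0 < dd) (hden : 0 < den) (hM : 0 < M) (hB : 0 < B)
    (h : dn * den * (M * B) ≤ dn * num * (M * B) + den * dd * s) :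
    dn / dd - s / (B * M) ≤ dn / dd * (num / den) := by
  have e : dn / dd * (num / den) - (dn / dd - s / (B * M))
      = (dn * num * (M * B) + den * dd * s - dn * den * (M * B)) / (dd * den * (B * M)) := by
    field_simp
    ring
  have : 0 ≤ dn / dd * (num / den) - (dn / dd - s / (B * M)) := by
    rw [e]; exact div_nonneg (by linarith) (by positivity)
  linarith

/-- The families of the end of a run. -/
theorem end_fams (hp : parOk P = true) (ht : TabsOk P g1 g2 g4) {dn dd num den : ℕ} (hd : 0 ≤ d)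
    {W : List ℕ} (he : poiEndOk P Qs dn dd g1 g2 g4 W num den = true) (hW : Full P W) :
    ∃ L : List (List ℕ), (∀ j < 15, (L.getD j []).length = P.n + 1) ∧
      endVal P Qs dn dd num den L = true ∧ ∀ n, LDom P.edgeVal d n (P.fw W) P.fv →
        ∀ j < 15, KDom P.edgeVal d n j (P.fw (L.getD j [])) P.fv := by
  simp only [poiEndOk, forceL_eq, force_eq, Bool.and_eq_true, Nat.ble_eq] at he
  obtain ⟨-, he⟩ := he
  have h0 := (edgeVal_mem hp).1
  have h1 := (edgeVal_mem hp).2.trans zero_le_one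
  obtain ⟨lu, su, uu⟩ := unit_upg hp
  -- the families are the same at every later level
  let K : ℕ → (Fin (P.n + 1) → ℝ) → (Fin (P.n + 1) → Fin 3 → ℝ) → Prop := fun j w v =>
    ∀ n, LDom P.edgeVal d n (P.fw W) P.fv → KDom P.edgeVal d n j w v
  obtain ⟨one, two, three, four, k1, k2, k3, k4, hk⟩ := kids4_spec hp ht hW (K := K)
    (fun n hn => kdom_one h0 h1 hn)
    (fun _ _ _ _ _ _ _ hu hz ha hb hh n hn => (kdom_add h0 h1 (ha n hn) (hb n hn) hu hz).upg hh)
    (fun _ _ _ _ ha hh n hn => (ha n hn).upg hh) he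
  obtain ⟨s5, hk⟩ := chk_spec hk
  obtain ⟨s6, hk⟩ := chk_spec hk
  obtain ⟨s7, hk⟩ := chk_spec hk
  obtain ⟨s8, hk⟩ := chk_spec hk
  obtain ⟨s10, hk⟩ := chk_spec hk
  obtain ⟨s12, hk⟩ := chk_spec hk
  obtain ⟨s14, hk⟩ := chk_spec hk
  generalize e5 : mulX P.four _ four _ one _ = five at hk s5
  generalize e6 : mulX P.four _ four _ two _ = six at hk s6 s14
  generalize e7 : mulX P.four _ four _ three _ = seven at hk s7
  generalize e8 : mulW P.four _ four _ = eight at hk s8 s10 s12 s14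
  generalize e10 : mulX P.four _ eight _ two _ = ten at hk s10
  generalize e12 : mulX P.four _ eight _ four _ = twelve at hk s12
  generalize e14 : mulX P.four _ eight _ six _ = fourteen at hk s14
  have cross : ∀ {i j : ℕ} {A B T : List ℕ}, Full P A ∧ K i (P.fw A) P.fv →
      Full P B ∧ K j (P.fw B) P.fv →
      T = mulX P.four (2 ^ P.bits) A (rowsR P.four (tableW P.four g4) (mask P.four) A) B
        (rowsR P.four (tableW P.four g4) (mask P.four) B) → T.sum = 2 ^ P.bits →
      Full P T ∧ K (i + j) (P.fw T) P.fv := by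
    intro i j A B T hA hB hT sT
    obtain ⟨l, u⟩ := cross_upg hp ht hA.1 hB.1.1 hB.1.2 le_rfl hT sT
    exact ⟨⟨l, sT⟩, fun n hn =>
      (kdom_add h0 h1 (hA.2 n hn) (hB.2 n hn) (fw_nonneg B) fv_nonneg).upg u⟩
  have k8 : Full P eight ∧ K 8 (P.fw eight) P.fv := by
    obtain ⟨f, u⟩ := sq_upg hp ht k4.1 e8.symm s8
    exact ⟨f, fun n hn =>
      (kdom_add h0 h1 (k4.2 n hn) (k4.2 n hn) (fw_nonneg four) fv_nonneg).upg u⟩
  have k5 := cross k4 k1 e5.symm s5
  have k6 := cross k4 k2 e6.symm s6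
  have k7 := cross k4 k3 e7.symm s7
  have k10 := cross k8 k2 e10.symm s10
  have k12 := cross k8 k4 e12.symm s12
  have k14 := cross k8 k6 e14.symm s14
  refine ⟨_, fun j hj => ?_, hk, fun n hn j hj => ?_⟩
  · match j, hj with
    | 0, _ => exact lu
    | 1, _ => exact k1.1.1
    | 2, _ => exact k2.1.1
    | 3, _ => exact k3.1.1
    | 4, _ => exact k4.1.1
    | 5, _ => exact k5.1.1
    | 6, _ => exact k6.1.1
    | 7, _ => exact k7.1.1
    | 8, _ => exact k8.1.1
    | 9, _ | 10, _ => exact k10.1.1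
    | 11, _ | 12, _ => exact k12.1.1
    | 13, _ | 14, _ => exact k14.1.1
  · match j, hj with
    | 0, _ => exact kdom_zero.upg uu
    | 1, _ => exact k1.2 n hn
    | 2, _ => exact k2.2 n hn
    | 3, _ => exact k3.2 n hn
    | 4, _ => exact k4.2 n hn
    | 5, _ => exact k5.2 n hn
    | 6, _ => exact k6.2 n hn
    | 7, _ => exact k7.2 n hn
    | 8, _ => exact k8.2 n hn
    | 9, _ => exact kdom_le hd h0 h1 (by norm_num) (k10.2 n hn)
    | 10, _ => exact k10.2 n hn
    | 11, _ => exact kdom_le hd h0 h1 (by norm_num) (k12.2 n hn)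
    | 12, _ => exact k12.2 n hn
    | 13, _ => exact kdom_le hd h0 h1 (by norm_num) (k14.2 n hn)
    | 14, _ => exact k14.2 n hn

/-- The end of a Poisson run bounds the averaged bound. -/
theorem poi_end (hp : parOk P = true) (ht : TabsOk P g1 g2 g4) {dn dd E : ℕ}
    (hqs : qOk P Qs dn dd E = true) (hE : Real.exp ((dn : ℝ) / dd) ≤ (E : ℝ) / 2 ^ 40)
    {N num den : ℕ} {W : List ℕ} (he : poiEndOk P Qs dn dd g1 g2 g4 W num den = true)
    (h : PoiState P ((dn : ℝ) / dd) N W) :
    ∀ᶠ n in atTop, avP P.edgeVal sX2 ((dn : ℝ) / dd) n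
      ≤ ENNReal.ofReal ((dn : ℝ) / dd * ((num : ℝ) / den)) := by
  obtain ⟨hlen, -, hq⟩ := qOk_spec hqs hE
  have hdd : 1 ≤ dd := by
    simp only [qOk, Bool.and_eq_true, Nat.ble_eq] at hqs
    exact hqs.1.1.1
  set d : ℝ := (dn : ℝ) / dd with hdef
  have hd : 0 ≤ d := by positivity
  have hden : 1 ≤ den := by
    simp only [poiEndOk, forceL_eq, force_eq, Bool.and_eq_true, Nat.ble_eq] at he
    exact he.1
  have h0 := (edgeVal_mem hp).1
  have h1 := (edgeVal_mem hp).2.trans zero_le_one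
  obtain ⟨L, hlenL, hv, hfam⟩ := end_fams hp ht hd he h.1
  simp only [endVal, force_eq, Bool.and_eq_true, Nat.ble_eq, sumUp_eq] at hv
  obtain ⟨hb, hx⟩ := hv
  have hev' : ∀ j < 15, ev (P.fw (L.getD j [])) P.fv sX2
      = (x2 P (L.getD j []) : ℝ) / ((2 ^ P.bits * P.D ^ 4 : ℕ) : ℝ) := by
    intro j hj
    rw [ev_sX2 hp (hlenL j hj), Nat.cast_mul, Nat.cast_pow, Nat.cast_pow, Nat.cast_ofNat]
  have hM0' : 0 < 2 ^ P.bits * P.D ^ 4 :=
    Nat.mul_pos (Nat.two_pow_pos _) (Nat.pow_pos (grid_spec hp).1)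
  generalize 2 ^ P.bits * P.D ^ 4 = M at hb hx hev' hM0'
  have hev := hev'
  have hM0 := hM0'
  have hle : ∀ j < 15, x2 P (L.getD j []) ≤ M := fun j hj => by
    have := allUp_eq _ _ hb j hj
    rwa [Nat.ble_eq] at this
  refine avP_eventually_tail adm_sX2 sX2_top hd h0 h1 (N := N) (J := 15) h.2
    (V := P.fv) (W := fun j => P.fw (L.getD j [])) (P := fun j => (tailQ Qs j : ℝ) / 2 ^ P.bits)
    (fun j _ => fw_nonneg _) fv_nonneg (fun j _ => div_nonneg (Nat.cast_nonneg _) (pow_nonneg zero_le_two _)) ?_ ?_ hfam ?_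
  · intro j _
    refine le_trans (le_of_eq (congrArg ENNReal.ofReal ?_))
      (tail_ge (q := fun k => (qk Qs k : ℝ) / 2 ^ P.bits) (j := j) (K := Qs.length)
        (fun k _ => div_nonneg (Nat.cast_nonneg _) (pow_nonneg zero_le_two _)) hq)
    rw [Finset.sum_Ico_eq_sum_range, tailQ, sumUp_eq, Nat.cast_sum, Finset.sum_div]
  · intro j hj
    rw [hev j hj, div_le_one (Nat.cast_pos.2 hM0)]
    exact Nat.cast_le.2 (hle j hj)
  · have hxR : (dn : ℝ) * den * ((M : ℝ) * 2 ^ P.bits) ≤ dn * num * ((M : ℝ) * 2 ^ P.bits)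
        + den * dd * ∑ j ∈ Finset.range 15,
          (tailQ Qs j : ℝ) * ((M : ℝ) - x2 P (L.getD j [])) := by
      have := (Nat.cast_le (α := ℝ)).2 hx
      push_cast at this
      rw [Finset.sum_congr rfl fun j hj => by
        rw [← Nat.cast_sub (hle j (Finset.mem_range.1 hj))]]
      exact this
    have e : ∑ j ∈ Finset.range 15,
        (tailQ Qs j : ℝ) / 2 ^ P.bits * (1 - ev (P.fw (L.getD j [])) P.fv sX2)
        = (∑ j ∈ Finset.range 15, (tailQ Qs j : ℝ) * ((M : ℝ) - x2 P (L.getD j [])))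
          / (2 ^ P.bits * M) := by
      rw [Finset.sum_div]
      refine Finset.sum_congr rfl fun j hj => ?_
      rw [hev j (Finset.mem_range.1 hj)]
      exact tail_term (Nat.cast_pos.2 hM0) (pow_pos zero_lt_two _)
    rw [e, hdef]
    exact end_alg (Nat.cast_pos.2 hdd) (Nat.cast_pos.2 hden) (Nat.cast_pos.2 hM0)
      (pow_pos zero_lt_two _) hxR

end Vale.Agent.P154.Neg.Grid
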