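import Vale.Agent.P154.Neg.Grid.RunKids

/-!
# P154: regular runs with four children per vertex

A level is two symmetric products. At the end the families for zero to three children bound `avT`.
-/

namespace Vale.Agent.P154.Neg.Grid

open Finset Filter Topology

/-- Check of `k` levels from `W` to `W'`, the tables being given. -/
noncomputable def runR (P : Par) (C2 C4 : List ℕ) (M : ℕ) : ℕ → List ℕ → List ℕ → Bool :=
  Nat.rec (fun W W' => sameL W W') fun _ ih W W' =>
    force (rowsR P.two C2 M W) fun R =>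
    chk (2 ^ P.bits) (mulW P.two (2 ^ P.bits) W R) fun T =>
    force (rowsR P.four C4 M T) fun R' =>
    chk (2 ^ P.bits) (mulW P.four (2 ^ P.bits) T R') fun W1 => ih W1 W'

/-- Check of `k` levels from `W` to `W'`. -/
noncomputable def regOk (P : Par) (g2 g4 : List (List ℕ)) (k : ℕ) (W W' : List ℕ) : Bool :=
  forceL (tableW P.two g2) fun C2 => forceL (tableW P.four g4) fun C4 =>
    force (mask P.four) fun M => runR P C2 C4 M k W W'

/-- Check of the end of a run against the threshold `num / den`. -/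
noncomputable def regEndOk (P : Par) (g1 g2 g4 : List (List ℕ)) (W : List ℕ) (num den : ℕ) : Bool :=
  forceL (tableW P.one g1) fun C1 => forceL (tableW P.two g2) fun C2 =>
    forceL (tableW P.four g4) fun C4 => force (mask P.four) fun M => Nat.ble 1 den &&
      kids4 P C1 C2 C4 M W fun one two three _ _ _ =>
        Nat.ble (den * (x2 P (unitL P) + x2 P one + x2 P two + x2 P three))
          (4 * num * (2 ^ P.bits * P.D ^ 4))

lemma runR_succ (P : Par) (C2 C4 : List ℕ) (M k : ℕ) (W W' : List ℕ) :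
    runR P C2 C4 M (k + 1) W W' = force (rowsR P.two C2 M W) fun R =>
      chk (2 ^ P.bits) (mulW P.two (2 ^ P.bits) W R) fun T =>
      force (rowsR P.four C4 M T) fun R' =>
      chk (2 ^ P.bits) (mulW P.four (2 ^ P.bits) T R') fun W1 => runR P C2 C4 M k W1 W' := rfl

variable {P : Par} {g1 g2 g4 : List (List ℕ)}

/-- The state of a regular run. -/
def RegState (P : Par) (m : ℕ) (W : List ℕ) : Prop :=
  Full P W ∧ Dom (lik P.edgeVal (fullTree 4 m) m) (P.fw W) P.fv

/-- The certain atom starts a run. -/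
theorem reg_start (hp : parOk P = true) : RegState P 0 (start P) := by
  obtain ⟨h1, h2, h3⟩ := start_upg hp
  exact ⟨⟨h1, h2⟩,
    (dom_top (good_lik (edgeVal_mem hp).1 ((edgeVal_mem hp).2.trans zero_le_one) _ 0)).upg h3⟩

/-- A chunk of a regular run. -/
theorem reg_chunk (hp : parOk P = true) (ht : TabsOk P g1 g2 g4) {k m : ℕ} {W W' : List ℕ}
    (hr : regOk P g2 g4 k W W' = true) (h : RegState P m W) : RegState P (m + k) W' := by
  simp only [regOk, forceL_eq, force_eq] at hr
  have h0 := (edgeVal_mem hp).1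
  have h1 := (edgeVal_mem hp).2.trans zero_le_one
  induction k generalizing m W with
  | zero => rw [← sameL_eq _ _ hr]; exact h
  | succ k ih =>
    rw [runR_succ, force_eq] at hr
    obtain ⟨sT, hr⟩ := chk_spec hr
    rw [force_eq] at hr
    obtain ⟨sF, hr⟩ := chk_spec hr
    obtain ⟨fT, uT⟩ := edge2_upg hp ht h.1 rfl sT
    obtain ⟨fF, uF⟩ := sq_upg hp ht fT rfl sF
    have one := kids_one h0 h1 h.2
    have hv : ∀ b i, 0 ≤ edge P.edgeVal (P.fv b) i := fun b i =>
      edge_nonneg_neg h0 h1 (fv_nonneg b) i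
    have two := (kids_add h0 h1 (i := 1) (j := 1) one one (fw_nonneg W) hv).upg uT
    rw [show m + (k + 1) = (m + 1) + k by omega]
    exact ih ⟨fF, (kids_add h0 h1 (i := 2) (j := 2) two two (fw_nonneg _) fv_nonneg).upg uF⟩ hr

/-- The end of a regular run bounds the averaged bound. -/
theorem reg_end (hp : parOk P = true) (ht : TabsOk P g1 g2 g4) {N num den : ℕ} {W : List ℕ}
    (he : regEndOk P g1 g2 g4 W num den = true) (h : RegState P N W) :
    ∀ᶠ n in atTop, avT P.edgeVal sX2 4 n ≤ (4 : ℕ) * ((num : ℝ) / den) := by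
  simp only [regEndOk, forceL_eq, force_eq, Bool.and_eq_true, Nat.ble_eq] at he
  obtain ⟨hden, he⟩ := he
  have h0 := (edgeVal_mem hp).1
  have h1 := (edgeVal_mem hp).2.trans zero_le_one
  obtain ⟨lu, su, uu⟩ := unit_upg hp
  obtain ⟨one, two, three, four, ⟨f1, k1⟩, ⟨f2, k2⟩, ⟨f3, k3⟩, -, hk⟩ := kids4_spec hp ht h.1
    (K := fun j w v => ∀ c m, Dom (lik P.edgeVal c m) (P.fw W) P.fv →
      Dom (lik P.edgeVal ((Tree.cons c)^[j] .nil) (m + 1)) w v)
    (fun c m hc => kids_one h0 h1 hc)
    (fun i j w v u z w' hu hz ha hb hh c m hc =>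
      (kids_add h0 h1 (ha c m hc) (hb c m hc) hu hz).upg hh)
    (fun i w v w' ha hh c m hc => (ha c m hc).upg hh) he
  rw [Nat.ble_eq] at hk
  set M : ℝ := 2 ^ P.bits * (P.D : ℝ) ^ 4
  have hM : 0 < M := by
    have := (grid_spec hp).1
    positivity
  refine avT_eventually h0 h1 h.2 (b := fun j => ev
    (P.fw (match j with | 0 => unitL P | 1 => one | 2 => two | _ => three)) P.fv sX2) ?_ ?_
  · intro j hj c m hc
    match j, hj with
    | 0, _ => exact (kids_zero _ m).upg uu sX2 adm_sX2
    | 1, _ => exact k1 c m hc sX2 adm_sX2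
    | 2, _ => exact k2 c m hc sX2 adm_sX2
    | 3, _ => exact k3 c m hc sX2 adm_sX2
  · simp only [sum_range_succ, sum_range_zero, zero_add]
    rw [ev_sX2 hp lu, ev_sX2 hp f1.1, ev_sX2 hp f2.1, ev_sX2 hp f3.1, ← add_div, ← add_div,
      ← add_div, mul_div_assoc', div_le_div_iff₀ hM (by exact_mod_cast hden)]
    have := (Nat.cast_le (α := ℝ)).2 hk
    push_cast at this ⊢
    linarith

end Vale.Agent.P154.Neg.Grid
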