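import Vale.Agent.P154.Neg.Order
import Vale.Agent.P154.Neg.Grid.Pack

/-!
# P154: witness-checked upgrade of one pair of atoms

For a pair of integer atoms `a`, `b` and each of the six relative relabellings, a witness names three
grid atoms and coefficients with `den * (their combination) ≤ num * D * (a * b)`; what is left over
goes to the certain atom. A second, aggregated form of the witness is cheaper to pack.
-/

namespace Vale.Agent.P154.Neg.Grid

open Finset

/-- An integer atom. -/
abbrev Atom := ℕ × ℕ × ℕ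

/-- Coordinates. -/
def co (z : Atom) : Fin 3 → ℕ := ![z.1, z.2.1, z.2.2]

/-- Sum of the coordinates. -/
def tot3 (z : Atom) : ℕ := z.1 + z.2.1 + z.2.2

/-- Coordinates as reals. -/
noncomputable def vr (z : Atom) : Fin 3 → ℝ := fun i => (co z i : ℝ)

lemma vr_nonneg (z : Atom) (i : Fin 3) : 0 ≤ vr z i := Nat.cast_nonneg _

lemma mass_vr (z : Atom) : mass (vr z) = (tot3 z : ℝ) := by
  simp [mass, vr, co, tot3]

/-- Relabelling number `k`. -/
def sel (k : ℕ) (z : Atom) : Atom := match k with
  | 1 => (z.2.1, z.1, z.2.2)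
  | 2 => (z.2.2, z.2.1, z.1)
  | 3 => (z.1, z.2.2, z.2.1)
  | 4 => (z.2.1, z.2.2, z.1)
  | 5 => (z.2.2, z.1, z.2.1)
  | _ => z

lemma co_sel (k : Fin 6) (z : Atom) (i : Fin 3) : co (sel k z) i = co z (perm6 k i) := by
  fin_cases k <;> fin_cases i <;> rfl

lemma exists_sel (k : ℕ) (z : Atom) : ∃ p : Equiv.Perm (Fin 3), ∀ i, co (sel k z) i = co z (p i) := by
  rcases lt_or_ge k 6 with h | h
  · exact ⟨perm6 ⟨k, h⟩, co_sel ⟨k, h⟩ z⟩
  · refine ⟨1, fun i => ?_⟩
    match k, h with
    | k + 6, _ => rfl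

/-- Entrywise product with the second atom relabelled. -/
def xk (k : ℕ) (a b : Atom) : Atom :=
  let b' := sel k b
  (a.1 * b'.1, a.2.1 * b'.2.1, a.2.2 * b'.2.2)

lemma co_xk (k : ℕ) (a b : Atom) (i : Fin 3) : co (xk k a b) i = co a i * co (sel k b) i := by
  fin_cases i <;> rfl

/-- The part of a witness used by relabelling `k`. -/
def part (code k : ℕ) : ℕ := Nat.mod (Nat.shiftRight code (192 * k)) (2 ^ 192)

/-- Grid index of term `m`. -/
def jf (e m : ℕ) : ℕ := Nat.mod (Nat.shiftRight e (40 + 48 * m)) 256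

/-- Coefficient of term `m`. -/
def cf (e m : ℕ) : ℕ := Nat.mod (Nat.shiftRight e (48 + 48 * m)) (2 ^ 40)

/-- Relabelling of the grid used by a witness. -/
def sg (e : ℕ) : ℕ := Nat.mod (Nat.shiftRight e 32) 256

/-- Sum over the numbers below `n`. -/
def sumUp (F : ℕ → ℕ) : ℕ → ℕ
  | 0 => 0
  | n + 1 => sumUp F n + F n

lemma sumUp_eq (F : ℕ → ℕ) : ∀ n, sumUp F n = ∑ i ∈ range n, F i
  | 0 => rfl
  | n + 1 => by rw [sumUp, sumUp_eq F n, sum_range_succ]

/-- Conjunction over the numbers below `n`. -/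
def allUp (F : ℕ → Bool) : ℕ → Bool
  | 0 => true
  | n + 1 => allUp F n && F n

lemma allUp_eq (F : ℕ → Bool) : ∀ n, allUp F n = true → ∀ i < n, F i = true
  | 0, _, i, h => absurd h (Nat.not_lt_zero i)
  | n + 1, h, i, hi => by
    simp only [allUp, Bool.and_eq_true] at h
    rcases Nat.lt_succ_iff_lt_or_eq.1 hi with h' | h'
    · exact allUp_eq F n h.1 i h'
    · exact h' ▸ h.2

/-- The inequality of one part, all numbers evaluated; `num` already carries the factor `D`. -/
def okNum (num den n : ℕ) (Z : ℕ → Atom) (x : Atom) (s j0 j1 j2 c0 c1 c2 : ℕ) : Bool :=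
  Nat.ble j0 n && Nat.ble j1 n && Nat.ble j2 n &&
    Nat.ble (Nat.mul den (Nat.add (Nat.mul c0 (sel s (Z j0)).1)
      (Nat.add (Nat.mul c1 (sel s (Z j1)).1) (Nat.mul c2 (sel s (Z j2)).1)))) (Nat.mul num x.1) &&
    Nat.ble (Nat.mul den (Nat.add (Nat.mul c0 (sel s (Z j0)).2.1)
      (Nat.add (Nat.mul c1 (sel s (Z j1)).2.1) (Nat.mul c2 (sel s (Z j2)).2.1))))
      (Nat.mul num x.2.1) &&
    Nat.ble (Nat.mul den (Nat.add (Nat.mul c0 (sel s (Z j0)).2.2)
      (Nat.add (Nat.mul c1 (sel s (Z j1)).2.2) (Nat.mul c2 (sel s (Z j2)).2.2))))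
      (Nat.mul num x.2.2)

/-- Validity of one part against the vector `x`. -/
def okPart (num den n : ℕ) (Z : ℕ → Atom) (x : Atom) (e : ℕ) : Bool :=
  force e fun e => force (sg e) fun s => force (jf e 0) fun j0 => force (jf e 1) fun j1 =>
    force (jf e 2) fun j2 => force (cf e 0) fun c0 => force (cf e 1) fun c1 =>
      force (cf e 2) fun c2 => okNum num den n Z x s j0 j1 j2 c0 c1 c2

/-- Validity of a pair witness. -/
def okPair (num den n : ℕ) (Z : ℕ → Atom) (a b : Atom) (code : ℕ) : Bool :=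
  allUp (fun k => okPart num den n Z (xk k a b) (part code k)) 6

/-- Coefficient given to the grid atom `i + 1`. -/
def tau (code i : ℕ) : ℕ :=
  ∑ k ∈ range 6, ∑ m ∈ range 3,
    if jf (part code k) m = i + 1 then cf (part code k) m else 0

/-- Packed contribution of one term: coefficient `c` in slot `j`. -/
def put (S j c : ℕ) : ℕ := Nat.shiftLeft c (Nat.mul S j)

/-- Packed contribution of one relabelling. -/
def entry1 (S code k : ℕ) : ℕ :=
  force (part code k) fun e =>
    Nat.add (put S (jf e 0) (cf e 0)) (Nat.add (put S (jf e 1) (cf e 1)) (put S (jf e 2) (cf e 2)))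

/-- Packed coefficient row of a pair; slot `0` collects the certain atom. -/
def entry (S code : ℕ) : ℕ :=
  Nat.add (entry1 S code 0) (Nat.add (entry1 S code 1) (Nat.add (entry1 S code 2)
    (Nat.add (entry1 S code 3) (Nat.add (entry1 S code 4) (entry1 S code 5)))))

/-- The unused coefficient of the certain atom. -/
def tauZ (code : ℕ) : ℕ :=
  ∑ k ∈ range 6, ∑ m ∈ range 3, if jf (part code k) m = 0 then cf (part code k) m else 0

/-- The row stored in the aggregated form: its lowest slot in bits 20 to 31, the slots above bit 32. -/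
def aggRow (S agg : ℕ) : ℕ :=
  Nat.shiftLeft (Nat.shiftRight agg 32) (Nat.mul S (Nat.mod (Nat.shiftRight agg 20) 4096))

variable {D num den n S code : ℕ} {Z : ℕ → Atom} {a b : Atom}

lemma okPart_spec {x : Atom} {e : ℕ} (h : okPart num den n Z x e = true) :
    (∀ m < 3, jf e m ≤ n) ∧
      ∀ i, den * ∑ m ∈ range 3, cf e m * co (sel (sg e) (Z (jf e m))) i ≤ num * co x i := by
  simp only [okPart, okNum, force_eq, Bool.and_eq_true, Nat.ble_eq, Nat.mul_eq, Nat.add_eq,
    ← Nat.add_assoc] at h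
  obtain ⟨⟨⟨⟨⟨h0, h1⟩, h2⟩, e0⟩, e1⟩, e2⟩ := h
  refine ⟨fun m hm => ?_, fun i => ?_⟩
  · match m, hm with
    | 0, _ => exact h0
    | 1, _ => exact h1
    | 2, _ => exact h2
  · fin_cases i <;> simp only [sum_range_succ, sum_range_zero, zero_add, co] <;> assumption

lemma put_eq (S : ℕ) {j : ℕ} (hj : j ≤ n) (c : ℕ) :
    put S j c = (if j = 0 then c else 0)
      + ∑ i ∈ range n, (if j = i + 1 then c else 0) * 2 ^ (S * (i + 1)) := by
  show c <<< (S * j) = _
  rw [Nat.shiftLeft_eq]
  match j, hj with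
  | 0, _ => simp
  | j + 1, hj =>
    rw [sum_eq_single j (fun i _ hi => by simp [Ne.symm hi])
      fun h' => absurd (mem_range.2 (Nat.lt_of_succ_le hj)) h']
    simp

lemma entry_eq (h : okPair num den n Z a b code = true) :
    entry S code = tauZ code + ∑ i ∈ range n, tau code i * 2 ^ (S * (i + 1)) := by
  have e : entry S code = ∑ k ∈ range 6, ∑ m ∈ range 3,
      put S (jf (part code k) m) (cf (part code k) m) := by
    simp only [sum_range_succ, sum_range_zero, entry, entry1, force_eq, Nat.add_eq]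
    ring
  rw [e, sum_congr rfl fun k hk => sum_congr rfl fun m hm => put_eq S
    ((okPart_spec (allUp_eq _ 6 h k (mem_range.1 hk))).1 m (mem_range.1 hm)) _]
  simp only [sum_add_distrib, tauZ, tau, sum_mul]
  congr 1
  rw [sum_comm (s := range n)]
  exact sum_congr rfl fun k _ => sum_comm

lemma gsplit (g : ℕ → ℝ) {j : ℕ} (hj : j ≤ n) (c : ℝ) :
    c * g j = (∑ i ∈ range n, (if j = i + 1 then c else 0) * (g (i + 1) - g 0)) + c * g 0 := by
  match j, hj with
  | 0, _ => simp
  | j + 1, hj =>
    rw [sum_eq_single j (fun i _ hi => by simp [Ne.symm hi])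
      fun h' => absurd (mem_range.2 (Nat.lt_of_succ_le hj)) h']
    simp; ring

/-- The witness inequality. -/
theorem pair_le (hD : 0 < D) (hZ : ∀ j ≤ n, tot3 (Z j) = D) (h0 : Z 0 = (D, 0, 0))
    (h : okPair (num * D) den n Z a b code = true) {f : (Fin 3 → ℝ) → ℝ} (hf : Adm f) :
    (num : ℝ) * D * ∑ k : Fin 6, sym6 f (fun i => vr a i * vr b (perm6 k i))
      ≤ den * ∑ i ∈ range n, (tau code i : ℝ) * (sym6 f (vr (Z (i + 1))) - sym6 f (vr (Z 0)))
        + num * (2 * tot3 a * tot3 b) * sym6 f (vr (Z 0)) := by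
  set g : ℕ → ℝ := fun j => sym6 f (vr (Z j)) with hg
  have hDR : (0 : ℝ) < D := by exact_mod_cast hD
  have hnum : (0 : ℝ) ≤ num := Nat.cast_nonneg _
  have hden : (0 : ℝ) ≤ den := Nat.cast_nonneg _
  have key : ∀ k : Fin 6, (num : ℝ) * D * sym6 f (fun i => vr a i * vr b (perm6 k i)) ≤
      den * ∑ m ∈ range 3, (∑ i ∈ range n,
        ((if jf (part code k) m = i + 1 then cf (part code k) m else 0 : ℕ) : ℝ)
          * (g (i + 1) - g 0))
      + num * mass (fun i => vr a i * vr b (perm6 k i)) * g 0 := by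
    intro k
    set e := part code k
    obtain ⟨hj, hle⟩ := okPart_spec (allUp_eq _ 6 h k k.2)
    set x : Fin 3 → ℝ := fun i => (num : ℝ) * (vr a i * vr b (perm6 k i)) with hx
    have hy0 : ∀ i, 0 ≤ vr a i * vr b (perm6 k i) :=
      fun i => mul_nonneg (vr_nonneg _ _) (vr_nonneg _ _)
    have hx0 : ∀ i, 0 ≤ x i := fun i => mul_nonneg hnum (hy0 i)
    have hxc : ∀ i, x i = (num : ℝ) * (co (xk k a b) i : ℝ) := by
      intro i; simp [hx, vr, co_xk, co_sel]
    choose p hp using fun m : Fin 3 => exists_sel (sg e) (Z (jf e m))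
    let r : Fin 3 → ℝ := fun i =>
      D * x i - ∑ m : Fin 3, ((den : ℝ) * cf e m) * vr (Z (jf e m)) (p m i)
    have hr : ∀ i, 0 ≤ r i := by
      intro i
      have h1 : den * ∑ m ∈ range 3, cf e m * co (sel (sg e) (Z (jf e m))) i
          ≤ num * D * co (xk k a b) i := hle i
      rw [sum_range] at h1
      simp only [hp] at h1
      have : (∑ m : Fin 3, ((den : ℝ) * cf e m) * vr (Z (jf e m)) (p m i)) ≤ D * x i := by
        rw [hxc]; simp only [vr, mul_assoc, ← Finset.mul_sum]
        rw [mul_left_comm (D : ℝ), ← mul_assoc (num : ℝ)]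
        exact_mod_cast h1
      exact sub_nonneg.2 this
    have hc := sym6_le_comb hf hDR hx0 (fun m : Fin 3 => (den : ℝ) * cf e m)
      (fun m => vr (Z (jf e m))) p
      (fun m => by positivity) (fun m i => vr_nonneg _ _) hr (fun i => by simp only [r]; ring)
    have hz0 : vr (Z 0) = fun i => (D : ℝ) * single 0 i := by
      funext i; rw [h0]; fin_cases i <;> simp [vr, co, single]
    have hg0 : g 0 = D * sym6 f (single 0) := by
      simp only [hg, hz0]
      exact hf.sym6.smul _ _ hDR.le (single_nonneg 0)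
    have hxs : sym6 f x = num * sym6 f (fun i => vr a i * vr b (perm6 k i)) :=
      hf.sym6.smul _ _ hnum hy0
    have hmx : mass x = num * mass (fun i => vr a i * vr b (perm6 k i)) := by
      simp only [hx, mass]; ring
    have hmr : mass r = D * mass x - D * ∑ m : Fin 3, (den : ℝ) * cf e m := by
      have e1 : ∀ m : Fin 3, ∑ i, vr (Z (jf e m)) (p m i) = (D : ℝ) := fun m => by
        rw [Equiv.sum_comp (p m), ← mass_eq_sum, mass_vr, hZ _ (hj m m.2)]
      rw [mass_eq_sum r, mass_eq_sum x]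
      simp only [r, Finset.sum_sub_distrib]
      rw [← Finset.mul_sum, Finset.sum_comm]
      simp only [← Finset.mul_sum, e1]
      simp only [Fin.sum_univ_three]; ring
    have hsplit : ∀ m ∈ range 3, (den : ℝ) * cf e m * g (jf e m)
        = (den : ℝ) * (∑ i ∈ range n, ((if jf e m = i + 1 then cf e m else 0 : ℕ) : ℝ)
          * (g (i + 1) - g 0)) + den * cf e m * g 0 := by
      intro m hm
      rw [mul_assoc, gsplit g (hj m (mem_range.1 hm))]
      simp only [Nat.cast_ite, Nat.cast_zero, e]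
      ring
    rw [hxs, hmr, hmx] at hc
    refine le_trans (le_of_eq (by ring)) (hc.trans (le_of_eq ?_))
    rw [show ∑ m : Fin 3, (den : ℝ) * cf e m * sym6 f (vr (Z (jf e m)))
      = ∑ m ∈ range 3, (den : ℝ) * cf e m * g (jf e m) from
        (sum_range (fun m => (den : ℝ) * cf e m * g (jf e m))).symm, sum_congr rfl hsplit,
      sum_add_distrib, ← sum_range (fun m => (den : ℝ) * cf e m), hg0, ← Finset.sum_mul,
      ← Finset.mul_sum (a := (den : ℝ))]
    ring
  rw [Finset.mul_sum]
  refine (Finset.sum_le_sum fun k _ => key k).trans (le_of_eq ?_)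
  rw [sum_add_distrib, ← Finset.sum_mul, ← Finset.mul_sum, ← Finset.mul_sum]
  congr 1
  · congr 1
    simp only [tau, Nat.cast_sum, Finset.sum_mul]
    conv_rhs => rw [sum_comm, sum_range]
    exact sum_congr rfl fun k _ => sum_comm
  · congr 2
    simp only [← mass_vr]
    simp [Fin.sum_univ_six, mass, perm6, Equiv.swap_apply_def]
    ring

/-- The coefficients of a valid witness add up to at most `num / den` of the total mass. -/
theorem cTot_le (hD : 0 < D) (hZ : ∀ j ≤ n, tot3 (Z j) = D)
    (h : okPair (num * D) den n Z a b code = true) :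
    den * ∑ k ∈ range 6, ∑ m ∈ range 3, cf (part code k) m ≤ num * (2 * tot3 a * tot3 b) := by
  have hs : ∀ (s : ℕ) (z : Atom), ∑ i, co (sel s z) i = tot3 z := by
    intro s z
    obtain ⟨p, hp⟩ := exists_sel s z
    simp only [hp]
    rw [Equiv.sum_comp p (co z), Fin.sum_univ_three]; rfl
  have hk : ∀ k ∈ range 6, D * (den * ∑ m ∈ range 3, cf (part code k) m)
      ≤ num * D * ∑ i, co (xk k a b) i := by
    intro k hk
    obtain ⟨hj, hle⟩ := okPart_spec (allUp_eq _ 6 h k (mem_range.1 hk))
    rw [mul_sum (a := num * D)]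
    refine le_trans (le_of_eq ?_) (sum_le_sum fun i _ => hle i)
    have e : ∀ m ∈ range 3, ∑ i, cf (part code k) m
        * co (sel (sg (part code k)) (Z (jf (part code k) m))) i = cf (part code k) m * D := by
      intro m hm
      rw [← mul_sum, hs, hZ _ (hj m (mem_range.1 hm))]
    symm
    rw [← mul_sum, sum_comm, sum_congr rfl e, ← sum_mul]
    ring
  have htot : ∑ k ∈ range 6, ∑ i, co (xk k a b) i = 2 * tot3 a * tot3 b := by
    simp [sum_range_succ, Fin.sum_univ_three, co, xk, sel, tot3]; ring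
  refine Nat.le_of_mul_le_mul_left ?_ hD
  rw [mul_sum (a := den), mul_sum]
  refine (sum_le_sum hk).trans (le_of_eq ?_)
  rw [← mul_sum, htot]; ring

end Vale.Agent.P154.Neg.Grid
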